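import Vale.Agent.P024.H409.Dens4

/-!
P024: density of the primes of `Z` of degree one whose norm is `1` modulo `l` and generates the
group of units modulo `e`.
-/

namespace Vale.Agent.P024.H409

open scoped NumberField ENNReal Topology
open IsDedekindDomain NumberField Filter

theorem modEq_one_of_prim {K : Type*} [Field K] [NumberField K] {l : ℕ} (hl : 0 < l) {ζ : 𝓞 K}
    (hζ : IsPrimitiveRoot ζ l) (w : HeightOneSpectrum (𝓞 K)) (hlw : (l : 𝓞 K) ∉ w.asIdeal) :
    Ideal.absNorm w.asIdeal ≡ 1 [MOD l] := by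
  have h1 := pow_eq_one_of_gal (M := K) (L := K) (d := 1) hl hζ (fun σ => by
    rw [pow_one]
    ext x
    exact σ.commutes x) w hlw
  rw [pow_one] at h1
  rw [← ZMod.natCast_eq_natCast_iff, h1, Nat.cast_one]

/-- **Density.** -/
theorem dens_gen (Z : Type*) [Field Z] [NumberField Z] (e : ℕ) [NeZero e] [IsCyclic (ZMod e)ˣ]
    (hcop : (Module.finrank ℚ Z).Coprime e.totient) :
    ∃ (T : Set ℕ) (δ : ℝ), T.Finite ∧ 0 < δ ∧ ∀ l : ℕ, l.Prime → l ∉ T →
      ∀ S : Set (HeightOneSpectrum (𝓞 Z)), S.Finite → ∀ᶠ s : ℝ in 𝓝[>] 1,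
        ENNReal.ofReal (δ / (l - 1) * Real.log (1 / (s - 1))) ≤
          ∑' w : {w : HeightOneSpectrum (𝓞 Z) | (Ideal.absNorm w.asIdeal).Prime ∧
            Ideal.absNorm w.asIdeal ∈ {r : ℕ | orderOf (r : ZMod e) = e.totient} ∧
            Ideal.absNorm w.asIdeal ≡ 1 [MOD l] ∧ w ∉ S}, ENNReal.ofReal (nm Z w.1 s) := by
  classical
  obtain ⟨T, hT, hirr⟩ := exists_irreducible Z e hcop
  have he1 : 0 < e.totient := Nat.totient_pos.2 (NeZero.pos e)
  have he2 : 0 < e.totient.totient := Nat.totient_pos.2 he1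
  have hc0 : (0 : ℝ) < (e.totient.totient : ℝ) / (e.totient : ℕ) := by positivity
  refine ⟨T, (e.totient.totient : ℝ) / (e.totient : ℕ) / 2, hT, by positivity, ?_⟩
  intro l hl hlT S hS
  have hl0 : NeZero l := ⟨hl.ne_zero⟩
  let K := CyclotomicField l Z
  have hcycK : IsCyclotomicExtension {l} Z K := CyclotomicField.isCyclotomicExtension l Z
  have hfdK : FiniteDimensional Z K := IsCyclotomicExtension.finiteDimensional {l} Z K
  have hnfK : NumberField K := NumberField.of_module_finite Z K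
  have hζ := IsCyclotomicExtension.zeta_spec l Z K
  have hd := hasDens_gen K e (hirr l hl hlT)
  set S' : Set (HeightOneSpectrum (𝓞 K)) := {w | pullPrime (algebraMap Z K) w ∈ S} ∪
    {w | (l : 𝓞 K) ∈ w.asIdeal} with hS'
  have hS'fin : S'.Finite := (finite_over hS).union (finite_dvd hl.ne_zero)
  have hd' := (hd.diff_finite hS'fin).eventually_le (half_lt_self hc0)
  set B : Set (HeightOneSpectrum (𝓞 K)) := {w | (Ideal.absNorm w.asIdeal).Prime ∧
      orderOf ((Ideal.absNorm w.asIdeal : ℕ) : ZMod e) = e.totient} \ S' with hB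
  set A : Set (HeightOneSpectrum (𝓞 Z)) := {w : HeightOneSpectrum (𝓞 Z) |
    (Ideal.absNorm w.asIdeal).Prime ∧
            Ideal.absNorm w.asIdeal ∈ {r : ℕ | orderOf (r : ZMod e) = e.totient} ∧
            Ideal.absNorm w.asIdeal ≡ 1 [MOD l] ∧ w ∉ S} with hA
  have hBA : ∀ w : B, pullPrime (algebraMap Z K) w.1 ∈ A := by
    rintro ⟨w, ⟨hw1, hw2⟩, hwS⟩
    have h1 : Ideal.absNorm (pullPrime (algebraMap Z K) w).asIdeal = Ideal.absNorm w.asIdeal :=
      absNorm_pull _ w hw1
    refine ⟨?_, ?_, ?_, ?_⟩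
    · show (Ideal.absNorm (pullPrime (algebraMap Z K) w).asIdeal).Prime
      rw [h1]
      exact hw1
    · show orderOf ((Ideal.absNorm (pullPrime (algebraMap Z K) w).asIdeal : ℕ) : ZMod e) = _
      rw [h1]
      exact hw2
    · show Ideal.absNorm (pullPrime (algebraMap Z K) w).asIdeal ≡ 1 [MOD l]
      rw [h1]
      exact modEq_one_of_prim hl.pos hζ.toInteger_isPrimitiveRoot w (fun h => hwS (Or.inr h))
    · exact fun h => hwS (Or.inl h)
  let g : B → A := fun w => ⟨pullPrime (algebraMap Z K) w.1, hBA w⟩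
  have hl1 : (0 : ℝ) < (l : ℝ) - 1 := by
    have : (1 : ℝ) < l := by exact_mod_cast hl.one_lt
    linarith
  have hle : ∀ s : ℝ, sg K B s ≤ ((l - 1 : ℕ) : ℝ≥0∞) * sg Z A s := by
    refine sg_fiber_le g ?_ ?_
    · rintro ⟨w, ⟨hw1, hw2⟩, hwS⟩
      exact (absNorm_pull _ w hw1).symm
    · intro v
      have h1 : ENat.card (g ⁻¹' {v}) ≤
          {P : HeightOneSpectrum (𝓞 K) | pullPrime (algebraMap Z K) P = v.1}.encard := by
        rw [Set.encard]
        refine ENat.card_le_card_of_injective (f := fun P => ⟨P.1.1, ?_⟩) ?_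
        · have h2 : g P.1 = v := P.2
          exact congrArg Subtype.val h2
        · intro P P' hPP
          have h3 : P.1.1 = P'.1.1 := Subtype.mk.inj hPP
          exact Subtype.ext (Subtype.ext h3)
      refine h1.trans ?_
      rw [encard_over]
      have h2 := (card_over_le (M := K) v.1).trans (finrank_le_totient Z l).1
      rw [Nat.totient_prime hl] at h2
      exact_mod_cast h2
  filter_upwards [hd'] with s hs
  have h4 := hs.trans (hle s)
  have h5 : ENNReal.ofReal ((e.totient.totient : ℝ) / (e.totient : ℕ) / 2 *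
      Real.log (1 / (s - 1))) = ((l - 1 : ℕ) : ℝ≥0∞) * ENNReal.ofReal
        ((e.totient.totient : ℝ) / (e.totient : ℕ) / 2 / (l - 1) * Real.log (1 / (s - 1))) := by
    rw [← ENNReal.ofReal_natCast, ← ENNReal.ofReal_mul (by positivity)]
    congr 1
    rw [Nat.cast_sub hl.one_le, Nat.cast_one]
    field_simp
  rw [h5] at h4
  have hl2 : ((l - 1 : ℕ) : ℝ≥0∞) ≠ 0 := by
    rw [Ne, Nat.cast_eq_zero]
    have := hl.one_lt
    omega
  exact (ENNReal.mul_le_mul_iff_right hl2 (ENNReal.natCast_ne_top _)).1 h4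

/-- An element of maximal order generates. -/
theorem gen_of_orderOf {e r : ℕ} [NeZero e] (h : orderOf (r : ZMod e) = e.totient) :
    ∀ x : (ZMod e)ˣ, ∃ k : ℕ, (x : ZMod e) = (r : ZMod e) ^ k := by
  classical
  have he1 : 0 < e.totient := Nat.totient_pos.2 (NeZero.pos e)
  have hu : IsUnit (r : ZMod e) := by
    have h1 := pow_orderOf_eq_one (r : ZMod e)
    rw [h] at h1
    exact IsUnit.of_pow_eq_one h1 he1.ne'
  obtain ⟨u, hu⟩ := hu
  have h2 : orderOf u = e.totient := by rw [← orderOf_units, hu, h]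
  have h3 : Nat.card (Subgroup.zpowers u) = Nat.card (ZMod e)ˣ := by
    rw [Nat.card_zpowers, h2, Nat.card_eq_fintype_card, ZMod.card_units_eq_totient]
  have h4 : Subgroup.zpowers u = ⊤ := Subgroup.eq_top_of_card_eq _ h3
  intro x
  have h5 : x ∈ Subgroup.zpowers u := by rw [h4]; trivial
  rw [← mem_powers_iff_mem_zpowers] at h5
  obtain ⟨k, hk⟩ := h5
  refine ⟨k, ?_⟩
  rw [← hu, ← hk]
  simp

end Vale.Agent.P024.H409
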