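import Vale.Agent.P024.H409.Loc

/-!
# The local norm index: `PropD`
-/

set_option linter.unusedSectionVars false

namespace Vale.Agent.P024.H409

open NumberField IsDedekindDomain M3

section

variable {L : Type*} [Field L] [NumberField L] {p : ℕ}

theorem mem_RR_iff {x : Lˣ} : x ∈ RR L p ↔ (x : L) ∈ Rs L p ∧ ((x⁻¹ : Lˣ) : L) ∈ Rs L p := by
  constructor
  · intro hx
    refine ⟨fun w hw => (hx w hw).le, fun w hw => ?_⟩
    rw [Units.val_inv_eq_inv_val, map_inv₀, hx w hw, inv_one]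
  · rintro ⟨h1, h2⟩ w hw
    refine le_antisymm (h1 w hw) ?_
    have h3 := h2 w hw
    have h4 : w.valuation L (x : L) * w.valuation L ((x⁻¹ : Lˣ) : L) = 1 := by
      rw [← map_mul, Units.mul_inv, map_one]
    calc (1 : WithZero (Multiplicative ℤ)) = w.valuation L (x : L) *
          w.valuation L ((x⁻¹ : Lˣ) : L) := h4.symm
      _ ≤ w.valuation L (x : L) * 1 := mul_le_mul_right h3 _
      _ = _ := mul_one _

theorem mem_VS_iff (hp : p.Prime) {k : ℕ} {x : Lˣ} :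
    x ∈ VS L p k ↔ x ∈ RR L p ∧ ∃ r ∈ Rs L p, (x : L) - 1 = (p : L) ^ k * r := by
  have hp0 : (p : L) ≠ 0 := by exact_mod_cast hp.ne_zero
  constructor
  · intro hx
    refine ⟨fun w hw => (hx w hw).1, ((p : L) ^ k)⁻¹ * ((x : L) - 1), fun w hw => ?_, ?_⟩
    · rw [map_mul, map_inv₀]
      have h1 := (hx w hw).2
      have h2 : w.valuation L ((p : L) ^ k) ≠ 0 := by
        rw [Ne, map_eq_zero]
        exact pow_ne_zero _ hp0
      exact inv_mul_le_one_of_le₀ h1 zero_le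
    · field_simp
  · rintro ⟨h1, r, hr, h2⟩ w hw
    refine ⟨h1 w hw, ?_⟩
    rw [h2, map_mul]
    calc _ ≤ w.valuation L ((p : L) ^ k) * 1 := mul_le_mul_right (hr w hw) _
      _ = _ := mul_one _

theorem exists_res (hp : p.Prime) (k : ℕ) {x : L} (hx : x ∈ Rs L p) :
    ∃ v : 𝓞 L, ∃ r ∈ Rs L p, x - (v : L) = (p : L) ^ k * r := by
  obtain ⟨n, hn, hnx⟩ := (mem_Rs_iff hp x).1 hx
  have hc : IsCoprime ((p : ℤ) ^ k) (n : ℤ) :=
    (Nat.isCoprime_iff_coprime.2 ((Nat.Prime.coprime_iff_not_dvd hp).2 hn)).pow_left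
  obtain ⟨a, b, hab⟩ := hc
  refine ⟨(b : 𝓞 L) * ⟨_, hnx⟩, (a : L) * x, ?_, ?_⟩
  · refine mul_mem ?_ hx
    have : (a : L) ∈ Rs L p := intCast_mem _ a
    exact this
  · have h1 : (a : L) * (p : L) ^ k + (b : L) * (n : L) = 1 := by
      have h0 := congrArg (Int.cast : ℤ → L) hab
      push_cast at h0
      exact h0
    have h2 : (((b : 𝓞 L) * ⟨_, hnx⟩ : 𝓞 L) : L) = (b : L) * ((n : L) * x) := by
      rfl
    rw [h2]
    linear_combination (-x) * h1

/-- finite index -/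
theorem VS_relIndex (hp : p.Prime) (k : ℕ) : (VS L p k).relIndex (RR L p) ≠ 0 := by
  have hp0 : (p : L) ≠ 0 := by exact_mod_cast hp.ne_zero
  have hI : (Ideal.span {(p : 𝓞 L) ^ k} : Ideal (𝓞 L)) ≠ ⊥ := by
    rw [Ne, Ideal.span_singleton_eq_bot]
    exact pow_ne_zero _ (by exact_mod_cast hp.ne_zero)
  have hfin : Finite (𝓞 L ⧸ Ideal.span {(p : 𝓞 L) ^ k}) := Ideal.finiteQuotientOfFreeOfNeBot _ hI
  choose v r hr hv using fun x : RR L p => exists_res (L := L) hp k (mem_RR_iff.1 x.2).1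
  have key : ∀ x y : RR L p, Ideal.Quotient.mk (Ideal.span {(p : 𝓞 L) ^ k}) (v x) =
      Ideal.Quotient.mk _ (v y) → x⁻¹ * y ∈ (VS L p k).subgroupOf (RR L p) := by
    intro x y h
    rw [Ideal.Quotient.eq, Ideal.mem_span_singleton] at h
    obtain ⟨s, hs⟩ := h
    rw [Subgroup.mem_subgroupOf]
    refine (mem_VS_iff hp).2 ⟨(x⁻¹ * y).2, ((x⁻¹ : RR L p) : Lˣ) * (r y - r x - (s : L)), ?_, ?_⟩
    · refine mul_mem (mem_RR_iff.1 (x⁻¹).2).1 (sub_mem (sub_mem (hr y) (hr x)) ?_)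
      exact fun w _ => w.valuation_le_one s
    · have h1 := hv x
      have h2 := hv y
      have h3 : ((v x : 𝓞 L) : L) - v y = (p : L) ^ k * s := by
        have := congrArg (fun z : 𝓞 L => (z : L)) hs
        simpa using this
      have h4 : (((x⁻¹ * y : RR L p) : Lˣ) : L) - 1 =
          (((x⁻¹ : RR L p) : Lˣ) : L) * ((((y : RR L p) : Lˣ) : L) - ((x : Lˣ) : L)) := by
        have h5 : (((x⁻¹ : RR L p) : Lˣ) : L) * ((x : Lˣ) : L) = 1 := by
          rw [← Units.val_mul, ← Subgroup.coe_mul, inv_mul_cancel, Subgroup.coe_one,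
            Units.val_one]
        rw [mul_sub, h5, Subgroup.coe_mul, Units.val_mul]
      rw [h4]
      linear_combination (((x⁻¹ : RR L p) : Lˣ) : L) * (h2 - h1 - h3)
  have : Finite (RR L p ⧸ (VS L p k).subgroupOf (RR L p)) := by
    refine Finite.of_injective (fun q => Ideal.Quotient.mk (Ideal.span {(p : 𝓞 L) ^ k})
      (v q.out)) ?_
    intro q q' h
    have h1 := key _ _ h
    rw [← QuotientGroup.eq] at h1
    rwa [QuotientGroup.out_eq', QuotientGroup.out_eq'] at h1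
  exact Subgroup.index_ne_zero_of_finite

end

section

variable {F L : Type*} [Field F] [NumberField F] [Field L] [NumberField L] [Algebra F L]
  [IsGalois F L] {p : ℕ} {β : L} {c e : ℕ}

theorem gal_mem_RR (hp : p.Prime) (g : L ≃ₐ[F] L) {x : Lˣ} (hx : x ∈ RR L p) :
    Units.map (g : L →* L) x ∈ RR L p := by
  rw [mem_RR_iff] at hx ⊢
  exact ⟨gal_mem_Rs hp g hx.1, gal_mem_Rs hp g hx.2⟩

theorem gal_mem_VV (h : Dat F p β c e) {k : ℕ} (hck : c ≤ k) (g : L ≃ₐ[F] L) {x : Lˣ}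
    (hx : x ∈ h.VV k hck) : Units.map (g : L →* L) x ∈ h.VV k hck :=
  ⟨h.pM_gal g hx.1, h.pM_gal g hx.2⟩

theorem dd_stable {σ : L ≃ₐ[F] L} {B : Subgroup Lˣ}
    (hB : ∀ (g : L ≃ₐ[F] L), ∀ x ∈ B, Units.map (g : L →* L) x ∈ B) : B ≤ B.comap (dd σ) :=
  fun x hx => div_mem (hB σ x hx) hx

theorem nn_stable {B : Subgroup Lˣ}
    (hB : ∀ (g : L ≃ₐ[F] L), ∀ x ∈ B, Units.map (g : L →* L) x ∈ B) :
    B ≤ B.comap (nn F L) :=
  fun x hx => prod_mem fun g _ => hB g x hx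

theorem nn_dd (σ : L ≃ₐ[F] L) (x : Lˣ) : nn F L (dd σ x) = 1 := by
  change ∏ τ : L ≃ₐ[F] L, Units.map (τ : L →* L) (Units.map (σ : L →* L) x / x) = 1
  rw [Finset.prod_congr rfl fun τ _ => map_div _ _ _, Finset.prod_div_distrib]
  have h3 : ∏ g : L ≃ₐ[F] L, Units.map (g : L →* L) (Units.map (σ : L →* L) x) =
      ∏ g : L ≃ₐ[F] L, Units.map (g : L →* L) x :=
    Fintype.prod_equiv (Equiv.mulRight σ) _ _ fun g => rfl
  rw [h3, div_self']

theorem dd_nn (σ : L ≃ₐ[F] L) (x : Lˣ) : dd σ (nn F L x) = 1 := by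
  change Units.map (σ : L →* L) (∏ τ : L ≃ₐ[F] L, Units.map (τ : L →* L) x) /
    (∏ τ : L ≃ₐ[F] L, Units.map (τ : L →* L) x) = 1
  rw [map_prod]
  have h3 : ∏ g : L ≃ₐ[F] L, Units.map (σ : L →* L) (Units.map (g : L →* L) x) =
      ∏ g : L ≃ₐ[F] L, Units.map (g : L →* L) x :=
    Fintype.prod_equiv (Equiv.mulLeft σ) _ _ fun g => rfl
  rw [h3, div_self']

/-- **the local norm index** -/
theorem propD.{u} : PropD.{u} := by
  intro F L _ _ _ _ _ _ σ hσ p hp
  obtain ⟨β, c, e, h⟩ := exists_dat F L hp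
  let k := e + c + 1
  have hck : c ≤ k := by omega
  have hk : 1 ≤ k := by omega
  let V := h.VV k hck
  have hVB : V ≤ RR L p := by
    intro x hx
    obtain ⟨m, hm, hxm⟩ := hx.1
    have hx' : (x : L) = 1 + (p : L) ^ k * m := by rw [← hxm]; ring
    intro w hw
    rw [hx']
    exact (unit_of_one_add hp hk (h.M_le hm)).2.2 w hw
  have hVS : VS L p (k + c) ≤ V := by
    intro x hx
    obtain ⟨-, r, hr, hxr⟩ := (mem_VS_iff hp).1 hx
    refine h.mem_VV hk hck ?_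
    rw [hxr]
    exact h.pM_of_Rs hr
  have hfin : V.relIndex (RR L p) ≠ 0 := fun h0 =>
    VS_relIndex hp (k + c) (Subgroup.relIndex_eq_zero_of_le_left hVS h0)
  have hW : (VS L p (k + c) ⊓ (dd σ).ker).relIndex ((dd σ).ker ⊓ RR L p) ≠ 0 := by
    have h1 := Subgroup.relIndex_inter_ne_zero (VS_relIndex (L := L) hp (k + c)) (dd σ).ker
    rwa [inf_comm (dd σ).ker]
  have hW' : ((RR L p).map (nn F L) ⊔ (VS L p (k + c) ⊓ (dd σ).ker)).relIndex
      ((dd σ).ker ⊓ RR L p) ≠ 0 := fun h0 =>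
    hW (Subgroup.relIndex_eq_zero_of_le_left le_sup_right h0)
  have key := abs_loc (dd σ) (nn F L) (Fx := (dd σ).ker) (B := RR L p) (V := V)
    (W := VS L p (k + c) ⊓ (dd σ).ker) (nn_dd σ) (fun x => MonoidHom.mem_ker)
    (fun x => MonoidHom.mem_ker.2 (dd_nn σ x)) hVB
    (dd_stable fun g x hx => gal_mem_RR hp g hx) (nn_stable fun g x hx => gal_mem_RR hp g hx)
    (dd_stable fun g x hx => gal_mem_VV h hck g hx) (nn_stable fun g x hx => gal_mem_VV h hck g hx)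
    hfin ?_ (inf_le_left.trans hVS) hW'
  · refine ⟨key.1, k + c, ?_, ?_⟩
    · rwa [inf_comm (RR L p)]
    · rw [inf_comm (RR L p)]
      exact key.2
  · intro a ha
    have h1 : PM F p β k (σ (a : L) / (a : L) - 1) := by
      have := ha.1
      have h2 : ((dd σ a : Lˣ) : L) = σ (a : L) / (a : L) := by
        change ((Units.map (σ : L →* L) a / a : Lˣ) : L) = _
        rw [Units.val_div_eq_div_val]
        rfl
      rwa [h2] at this
    obtain ⟨f, hf0, hσf, hf⟩ := h.main hσ (le_refl _) a.ne_zero h1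
    refine Subgroup.mem_sup.2 ⟨Units.mk0 f hf0, ?_, a / Units.mk0 f hf0, ?_, by
      rw [mul_div_cancel]⟩
    · rw [MonoidHom.mem_ker]
      change Units.map (σ : L →* L) (Units.mk0 f hf0) / Units.mk0 f hf0 = 1
      rw [div_eq_one]
      ext
      exact hσf
    · refine h.mem_VV hk hck ?_
      rw [Units.val_div_eq_div_val]
      exact hf

end

end Vale.Agent.P024.H409
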