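import Vale.Agent.P024.H409.Dens5
import Vale.Agent.P024.H644.K12

/-!
P024: the density hypothesis of the main theorem.
-/

namespace Vale.Agent.P024.H409

open scoped NumberField ENNReal Topology
open IsDedekindDomain NumberField Filter

/-- For a number field `Z` of degree prime to the order of the cyclic group of units modulo `e`. -/
theorem densA (Z : Type*) [Field Z] [NumberField Z] (e : ℕ) [NeZero e] [IsCyclic (ZMod e)ˣ]
    (hcop : (Module.finrank ℚ Z).Coprime e.totient) :
    ∃ (T : Set ℕ) (δ : ℝ), T.Finite ∧ 0 < δ ∧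
      TR.DensA Z {r : ℕ | orderOf (r : ZMod e) = e.totient} T δ :=
  dens_gen Z e hcop

/-- For a Galois number field `Z` whose Galois group has prime exponent `e`. -/
theorem densA_prime (Z : Type*) [Field Z] [NumberField Z] [IsGalois ℚ Z] (e : ℕ) (he : e.Prime)
    (hG : ∀ g : Z ≃ₐ[ℚ] Z, g ^ e = 1) :
    ∃ (T : Set ℕ) (δ : ℝ), T.Finite ∧ 0 < δ ∧
      TR.DensA Z {r : ℕ | orderOf (r : ZMod e) = e - 1} T δ := by
  have hf : Fact e.Prime := ⟨he⟩
  have hne : NeZero e := ⟨he.ne_zero⟩
  have hcop : (Module.finrank ℚ Z).Coprime e.totient := by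
    have hp : IsPGroup e (Z ≃ₐ[ℚ] Z) := fun g => ⟨1, by rw [pow_one]; exact hG g⟩
    obtain ⟨n, hn⟩ := IsPGroup.iff_card.1 hp
    rw [IsGalois.card_aut_eq_finrank] at hn
    rw [hn, Nat.totient_prime he]
    refine Nat.Coprime.pow_left _ ?_
    rw [Nat.Prime.coprime_iff_not_dvd he]
    intro h
    have h1 := Nat.le_of_dvd (by have := he.one_lt; omega) h
    have := he.one_lt
    omega
  have h1 := densA Z e hcop
  rwa [Nat.totient_prime he] at h1

end Vale.Agent.P024.H409
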