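import Mathlib

/-!
# Herbrand quotient argument for a finite quotient `B/V`
-/

namespace Vale.Agent.P024.H409

section

variable {𝔾 : Type*} [CommGroup 𝔾] (D T : 𝔾 →* 𝔾)

theorem sup_mem_iff {H K : Subgroup 𝔾} {x : 𝔾} : x ∈ H ⊔ K ↔ ∃ y ∈ H, ∃ z ∈ K, y * z = x :=
  Subgroup.mem_sup

/-- `[B : V] = [f B : V] [B ∩ f⁻¹ V : V]` -/
theorem count_aux {B V : Subgroup 𝔾} (f : 𝔾 →* 𝔾) (hVB : V ≤ B) (hfV : V ≤ V.comap f) :
    V.relIndex (B ⊓ V.comap f) * V.relIndex (B.map f) = V.relIndex B := by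
  rw [← Subgroup.relIndex_comap, ← Subgroup.inf_relIndex_left B (V.comap f)]
  exact Subgroup.relIndex_mul_relIndex _ _ _ (le_inf hVB hfV) inf_le_left

/-- **the local index inequality, abstract form** -/
theorem abs_loc {Fx B V W : Subgroup 𝔾} (hTD : ∀ x, T (D x) = 1) (hDF : ∀ x, x ∈ Fx ↔ D x = 1)
    (hTF : ∀ x, T x ∈ Fx) (hVB : V ≤ B) (hDB : B ≤ B.comap D) (hTB : B ≤ B.comap T)
    (hDV : V ≤ V.comap D) (hTV : V ≤ V.comap T) (hfin : V.relIndex B ≠ 0)
    (hV : ∀ a, D a ∈ V → a ∈ Fx ⊔ V) (hW : W ≤ V)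
    (hWfin : (B.map T ⊔ W).relIndex (Fx ⊓ B) ≠ 0) :
    (Fx ⊔ B).relIndex (B.comap D) ≠ 0 ∧
      (Fx ⊔ B).relIndex (B.comap D) ≤ (B.map T ⊔ W).relIndex (Fx ⊓ B) := by
  -- the groups
  set a0 := (B.map T ⊔ V).relIndex (B ⊓ V.comap D) with ha0
  set a1 := (B.map D ⊔ V).relIndex (B ⊓ V.comap T) with ha1
  have hTB' : B.map T ≤ B := Subgroup.map_le_iff_le_comap.2 hTB
  have hDB' : B.map D ≤ B := Subgroup.map_le_iff_le_comap.2 hDB
  have hD1 : ∀ x, D (T x) = 1 := fun x => (hDF _).1 (hTF x)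
  have hTsub : B.map T ⊔ V ≤ B ⊓ V.comap D := by
    refine sup_le (le_inf hTB' ?_) (le_inf hVB hDV)
    rintro _ ⟨x, _, rfl⟩
    rw [Subgroup.mem_comap, hD1]
    exact V.one_mem
  have hDsub : B.map D ⊔ V ≤ B ⊓ V.comap T := by
    refine sup_le (le_inf hDB' ?_) (le_inf hVB hTV)
    rintro _ ⟨x, _, rfl⟩
    rw [Subgroup.mem_comap, hTD]
    exact V.one_mem
  have e1 : V.relIndex (B.map T) * a0 * V.relIndex (B.map D) = V.relIndex B := by
    rw [← count_aux D hVB hDV]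
    congr 1
    rw [← Subgroup.relIndex_mul_relIndex V (B.map T ⊔ V) _ le_sup_right hTsub,
      Subgroup.relIndex_sup_right]
  have e2 : V.relIndex (B.map D) * a1 * V.relIndex (B.map T) = V.relIndex B := by
    rw [← count_aux T hVB hTV]
    congr 1
    rw [← Subgroup.relIndex_mul_relIndex V (B.map D ⊔ V) _ le_sup_right hDsub,
      Subgroup.relIndex_sup_right]
  have h0 : V.relIndex (B.map T) ≠ 0 := fun h => hfin (by rw [← e1, h]; ring)
  have h1 : V.relIndex (B.map D) ≠ 0 := fun h => hfin (by rw [← e1, h]; ring)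
  have ha : a0 = a1 := by
    have h2 : (V.relIndex (B.map T) * V.relIndex (B.map D)) * a0 =
        (V.relIndex (B.map T) * V.relIndex (B.map D)) * a1 := by
      rw [← mul_right_comm, e1, ← e2]
      ring
    exact Nat.eq_of_mul_eq_mul_left (Nat.pos_of_ne_zero (mul_ne_zero h0 h1)) h2
  have ha1' : a1 ≠ 0 := fun h => hfin (by rw [← e2, h]; ring)
  -- the map `a ↦ D a`
  have hC : (B.map D ⊔ V).comap D = Fx ⊔ B := by
    apply le_antisymm
    · intro a ha
      obtain ⟨_, ⟨b, hb, rfl⟩, v, hv, hbv⟩ := Subgroup.mem_sup.1 (Subgroup.mem_comap.1 ha)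
      have h4 : D (a / b) ∈ V := by
        rw [map_div, ← hbv, mul_div_cancel_left]
        exact hv
      have h5 := hV _ h4
      have h6 : a = (a / b) * b := (div_mul_cancel a b).symm
      rw [h6]
      refine mul_mem ((sup_le_sup_left hVB Fx) h5) (Subgroup.mem_sup_right hb)
    · refine sup_le ?_ ?_
      · intro a ha
        rw [Subgroup.mem_comap, (hDF a).1 ha]
        exact one_mem _
      · intro a ha
        exact Subgroup.mem_sup_left ⟨a, ha, rfl⟩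
  have h4 : (B.comap D).map D ≤ B ⊓ V.comap T := by
    rintro _ ⟨x, hx, rfl⟩
    refine Subgroup.mem_inf.2 ⟨hx, ?_⟩
    rw [Subgroup.mem_comap, hTD]
    exact V.one_mem
  have h5 : (Fx ⊔ B).relIndex (B.comap D) = (B.map D ⊔ V).relIndex ((B.comap D).map D) := by
    rw [← hC, Subgroup.relIndex_comap]
  have h6 : (Fx ⊔ B).relIndex (B.comap D) ≤ a1 := by
    rw [h5]
    exact Subgroup.relIndex_le_of_le_right h4 ha1'
  have h7 : (Fx ⊔ B).relIndex (B.comap D) ≠ 0 := by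
    rw [h5]
    exact fun h => ha1' (Subgroup.relIndex_eq_zero_of_le_right h4 h)
  -- `(B/V)^G`
  have h8 : B ⊓ V.comap D = (Fx ⊓ B) ⊔ V := by
    apply le_antisymm
    · rintro a ⟨ha, ha'⟩
      obtain ⟨f, hf, v, hv, hfv⟩ := Subgroup.mem_sup.1 (hV a ha')
      refine Subgroup.mem_sup.2 ⟨f, Subgroup.mem_inf.2 ⟨hf, ?_⟩, v, hv, hfv⟩
      have : f = a / v := by rw [← hfv, mul_div_cancel_right]
      rw [this]
      exact div_mem ha (hVB hv)
    · refine sup_le ?_ (le_inf hVB hDV)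
      rintro a ⟨ha, ha'⟩
      refine Subgroup.mem_inf.2 ⟨ha', ?_⟩
      rw [Subgroup.mem_comap, (hDF a).1 ha]
      exact one_mem _
  have h9 : a0 = (B.map T ⊔ V).relIndex (Fx ⊓ B) := by
    have h10 : (Fx ⊓ B) ⊔ V = (Fx ⊓ B) ⊔ (B.map T ⊔ V) := by
      apply le_antisymm
      · exact sup_le_sup_left le_sup_right _
      · refine sup_le le_sup_left (sup_le ?_ le_sup_right)
        rintro _ ⟨x, hx, rfl⟩
        exact Subgroup.mem_sup_left ⟨hTF x, hTB' ⟨x, hx, rfl⟩⟩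
    rw [ha0, h8, h10, Subgroup.relIndex_sup_right]
  refine ⟨h7, h6.trans ?_⟩
  rw [← ha, h9]
  exact Subgroup.relIndex_le_of_le_left (sup_le_sup_left hW _) hWfin

end

end Vale.Agent.P024.H409
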