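import Vale.Agent.P024.H409.Dens2

/-!
P024: primes of Galois number fields with trivial decomposition group, and elements with
prescribed valuations at the conjugates.
-/

namespace Vale.Agent.P024.H409

open scoped NumberField ENNReal Topology
open IsDedekindDomain NumberField Filter

theorem HasDens.nonempty {K : Type*} [Field K] [NumberField K]
    {B : Set (HeightOneSpectrum (𝓞 K))} (hB : HasDens K B 1) : B.Nonempty := by
  by_contra h
  rw [Set.not_nonempty_iff_eq_empty] at h
  have h1 := hB.eventually_le (show (1 / 2 : ℝ) < 1 by norm_num)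
  obtain ⟨s, hs, hs2⟩ := (h1.and (tendsto_log_one_div.eventually_gt_atTop 0)).exists
  rw [h] at hs
  have h2 : sg K (∅ : Set (HeightOneSpectrum (𝓞 K))) s = 0 := by
    rw [sg]
    exact tsum_empty
  rw [h2, nonpos_iff_eq_zero, ENNReal.ofReal_eq_zero] at hs
  linarith

section Split

variable {M : Type*} [Field M] [NumberField M] [IsGalois ℚ M]

/-- A prime of prime norm, unramified over the rationals with all its conjugates, has trivial
stabilizer. -/
theorem stab_trivial (w : HeightOneSpectrum (𝓞 M)) (hw : (Ideal.absNorm w.asIdeal).Prime)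
    (hunr : ∀ P : HeightOneSpectrum (𝓞 M), pullPrime (algebraMap ℚ M) P =
      pullPrime (algebraMap ℚ M) w → ∀ p : ℕ, p.Prime → (p : 𝓞 M) ∈ P.asIdeal →
        P.valuation M (p : M) = WithZero.exp (-1 : ℤ))
    (τ τ' : M ≃ₐ[ℚ] M) (hτ : pullPrime (τ : M →+* M) w = pullPrime (τ' : M →+* M) w) :
    τ = τ' := by
  classical
  set q : HeightOneSpectrum (𝓞 ℚ) := pullPrime (algebraMap ℚ M) w with hq
  set r := Ideal.absNorm w.asIdeal with hr
  have hrw : (r : 𝓞 M) ∈ w.asIdeal := Ideal.absNorm_mem _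
  have hqr : Ideal.absNorm q.asIdeal = r := absNorm_pull _ w hw
  -- the rational prime below
  have hmem : ∀ P : HeightOneSpectrum (𝓞 M), pullPrime (algebraMap ℚ M) P = q →
      (r : 𝓞 M) ∈ P.asIdeal := by
    intro P hP
    have h1 : (r : 𝓞 ℚ) ∈ q.asIdeal := by
      rw [← hqr]
      exact Ideal.absNorm_mem _
    rw [← hP, mem_pullPrime, map_natCast] at h1
    exact h1
  have hconj : ∀ σ : M ≃ₐ[ℚ] M, pullPrime (algebraMap ℚ M) (pullPrime (σ : M →+* M) w) = q := by
    intro σ
    apply HeightOneSpectrum.ext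
    ext x
    rw [mem_pullPrime, mem_pullPrime, hq, mem_pullPrime]
    have h1 : RingOfIntegers.mapRingHom (σ : M →+* M) (RingOfIntegers.mapRingHom
        (algebraMap ℚ M) x) = RingOfIntegers.mapRingHom (algebraMap ℚ M) x := by
      apply NumberField.RingOfIntegers.ext
      exact σ.commutes (x : ℚ)
    rw [h1]
  have hcard : {P : HeightOneSpectrum (𝓞 M) | pullPrime (algebraMap ℚ M) P = q}.encard =
      (Module.finrank ℚ M : ℕ∞) := by
    rw [encard_over, card_over_eq q (fun P hP => ⟨?_, hunr P hP⟩)]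
    obtain ⟨σ, hσ⟩ := exists_gal_pull w P hw hrw (hmem P hP)
    rw [← hσ, absNorm_pull _ w hw, hqr]
  let f : (M ≃ₐ[ℚ] M) → {P : HeightOneSpectrum (𝓞 M) | pullPrime (algebraMap ℚ M) P = q} :=
    fun σ => ⟨pullPrime (σ : M →+* M) w, hconj σ⟩
  have hf : Function.Surjective f := by
    rintro ⟨P, hP⟩
    obtain ⟨σ, hσ⟩ := exists_gal_pull w P hw hrw (hmem P hP)
    exact ⟨σ, Subtype.ext hσ⟩
  have hc : Nat.card (M ≃ₐ[ℚ] M) ≤
      Nat.card {P : HeightOneSpectrum (𝓞 M) | pullPrime (algebraMap ℚ M) P = q} := by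
    rw [IsGalois.card_aut_eq_finrank, Nat.card_coe_set_eq, Set.ncard_def, hcard]
    exact le_of_eq (ENat.toNat_natCast _).symm
  exact (hf.bijective_of_nat_card_le hc).1 (Subtype.ext hτ)

theorem exists_split (S : Set (HeightOneSpectrum (𝓞 M))) (hS : S.Finite) :
    ∃ w : HeightOneSpectrum (𝓞 M), w ∉ S ∧ (Ideal.absNorm w.asIdeal).Prime ∧
      ∀ τ τ' : M ≃ₐ[ℚ] M, pullPrime (τ : M →+* M) w = pullPrime (τ' : M →+* M) w → τ = τ' := by
  have h1 : {w : HeightOneSpectrum (𝓞 M) | ∃ P : HeightOneSpectrum (𝓞 M),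
      pullPrime (algebraMap ℚ M) P = pullPrime (algebraMap ℚ M) w ∧ ∃ p : ℕ, p.Prime ∧
        (p : 𝓞 M) ∈ P.asIdeal ∧ P.valuation M (p : M) ≠ WithZero.exp (-1 : ℤ)}.Finite := by
    have h2 := finite_over (K := ℚ) (M := M) (finite_bad (K := ℚ) (M := M))
    exact h2
  obtain ⟨w, ⟨hw1, hw2⟩⟩ := (((hasDens_one M).diff_finite (hS.union h1))).nonempty
  refine ⟨w, fun h => hw2 (Or.inl h), hw1, stab_trivial w hw1 ?_⟩
  intro P hP p hp hpP
  by_contra hne
  exact hw2 (Or.inr ⟨P, hP, p, hp, hpP, hne⟩)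

omit [IsGalois ℚ M] in
/-- An element with valuation one at `w` and zero at all other primes in a finite set. -/
theorem exists_elt (w : HeightOneSpectrum (𝓞 M)) (T : Finset (HeightOneSpectrum (𝓞 M)))
    (hwT : w ∉ T) : ∃ z : 𝓞 M, w.valuation M (z : M) = WithZero.exp (-1 : ℤ) ∧
      ∀ P ∈ T, P.valuation M (z : M) = 1 := by
  classical
  obtain ⟨π, hπ⟩ := w.intValuation_exists_uniformizer
  have hne : (1 : 𝓞 M) ≠ 0 := one_ne_zero
  obtain ⟨y, hy⟩ := IsDedekindDomain.exists_forall_sub_mem_ideal (s := insert w T)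
    (fun P : HeightOneSpectrum (𝓞 M) => P.asIdeal) (fun _ => 2) (fun P _ => P.prime)
    (fun P _ Q _ hPQ h => hPQ (HeightOneSpectrum.ext h))
    (fun P => if P.1 = w then π else 1)
  have hyw := hy w (Finset.mem_insert_self _ _)
  simp only [if_true] at hyw
  refine ⟨y, ?_, ?_⟩
  · have h1 : w.intValuation (y - π) ≤ WithZero.exp (-((2 : ℕ) : ℤ)) :=
      (w.intValuation_le_pow_iff_mem _ _).2 hyw
    have h2 : w.intValuation (y - π) < w.intValuation π := by
      rw [hπ]
      refine lt_of_le_of_lt h1 ?_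
      rw [WithZero.exp_lt_exp]
      norm_num
    have h3 : w.intValuation y = w.intValuation π := by
      have h4 := Valuation.map_add_eq_of_lt_right w.intValuation h2
      rwa [sub_add_cancel] at h4
    rw [← hπ, ← h3]
    exact w.valuation_of_algebraMap y
  · intro P hP
    have hPw : P ≠ w := fun h => hwT (h ▸ hP)
    have h1 := hy P (Finset.mem_insert_of_mem hP)
    simp only [if_neg hPw] at h1
    rw [P.valuation_eq_one_iff_notMem]
    intro h2
    have h3 : y - 1 ∈ P.asIdeal := Ideal.pow_le_self (by norm_num) h1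
    have h4 : (1 : 𝓞 M) ∈ P.asIdeal := by
      have := P.asIdeal.sub_mem h2 h3
      rwa [sub_sub_cancel] at this
    exact P.isPrime.ne_top ((Ideal.eq_top_iff_one _).2 h4)

end Split

end Vale.Agent.P024.H409
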