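import Vale.Agent.P024.H409.Comm1
import Mathlib.FieldTheory.Galois.Infinite

/-!
P024: Kummer characters.
-/

namespace Vale.Agent.P024.H409

open scoped NumberField ENNReal Topology
open IsDedekindDomain NumberField Filter

section Kum

variable {E : Type*} [Field E] [CharZero E] [IsGalois ℚ E]
  (M : IntermediateField ℚ E) {l : ℕ} {ζ : E}

theorem fix_apply {ω : E ≃ₐ[ℚ] E} (hω : ω ∈ M.fixingSubgroup) {x : E} (hx : x ∈ M) : ω x = x :=
  (IntermediateField.mem_fixingSubgroup_iff M ω).1 hω x hx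

/-- the exponent of an element on a root -/
theorem exists_kexp (hl : 0 < l) (hζ : IsPrimitiveRoot ζ l) (ω : E ≃ₐ[ℚ] E)
    (hω : ω ∈ M.fixingSubgroup) {y : E} (hy : y ^ l ∈ M) (hy0 : y ≠ 0) :
    ∃ k : ℕ, ω y = ζ ^ k * y := by
  have : NeZero l := ⟨hl.ne'⟩
  have h1 : (ω y / y) ^ l = 1 := by
    rw [div_pow, ← map_pow, fix_apply M hω hy, div_self (pow_ne_zero _ hy0)]
  obtain ⟨k, -, hk⟩ := hζ.eq_pow_of_pow_eq_one h1
  exact ⟨k, by rw [hk, div_mul_cancel₀ _ hy0]⟩

theorem fixed_mem {y : E} (h : ∀ ω ∈ M.fixingSubgroup, ω y = y) : y ∈ M := by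
  have h1 : y ∈ IntermediateField.fixedField M.fixingSubgroup := by
    rw [IntermediateField.mem_fixedField_iff]
    exact h
  rwa [InfiniteGalois.fixedField_fixingSubgroup] at h1

theorem prim_pow_cast (hl : 0 < l) (hζ : IsPrimitiveRoot ζ l) {a b : ℕ}
    (h : (a : ZMod l) = (b : ZMod l)) : ζ ^ a = ζ ^ b := by
  rw [rootPow_eq_iff_modEq hζ a b hl, ← ZMod.natCast_eq_natCast_iff]
  exact h

/-- Duality: if `y i₀` occurs in all products of the `y i` in `M` with an exponent divisible by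
`l`, then some automorphism over `M` fixes the other `y i` and moves `y i₀`. -/
theorem exists_dual [Fact l.Prime] (hζ : IsPrimitiveRoot ζ l) (hζM : ζ ∈ M)
    {ι : Type*} [Fintype ι] [DecidableEq ι] (y : ι → E) (hy : ∀ i, y i ^ l ∈ M)
    (hy0 : ∀ i, y i ≠ 0) (i₀ : ι)
    (h : ∀ e : ι → ℕ, ∏ i, y i ^ e i ∈ M → l ∣ e i₀) :
    ∃ ω ∈ M.fixingSubgroup, ω (y i₀) = ζ * y i₀ ∧ ∀ i, i ≠ i₀ → ω (y i) = y i := by
  have hl : l.Prime := Fact.out
  have hl0 : NeZero l := ⟨hl.ne_zero⟩
  have hmulfix : ∀ (ω : E ≃ₐ[ℚ] E), ω ∈ M.fixingSubgroup → ∀ k : ℕ, ω (ζ ^ k) = ζ ^ k := by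
    intro ω hω k
    rw [map_pow, fix_apply M hω hζM]
  -- the subgroup of exponent vectors
  let H₀ : AddSubgroup (ι → ZMod l) :=
    AddSubgroup.closure {k | ∃ ω ∈ M.fixingSubgroup, ∀ i, ω (y i) = ζ ^ (k i).val * y i}
  have hH₀ : ∀ k ∈ H₀, ∃ ω ∈ M.fixingSubgroup, ∀ i, ω (y i) = ζ ^ (k i).val * y i := by
    intro k hk
    induction hk using AddSubgroup.closure_induction with
    | mem k hk => exact hk
    | zero => exact ⟨1, one_mem _, fun i => by simp⟩
    | add a b _ _ ha hb =>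
      obtain ⟨ω, hω, ha⟩ := ha
      obtain ⟨ω', hω', hb⟩ := hb
      refine ⟨ω * ω', mul_mem hω hω', fun i => ?_⟩
      rw [AlgEquiv.mul_apply, hb, map_mul, hmulfix ω hω, ha, ← mul_assoc, ← pow_add]
      congr 1
      apply prim_pow_cast hl.pos hζ
      push_cast
      rw [ZMod.natCast_zmod_val, ZMod.natCast_zmod_val, ZMod.natCast_zmod_val, Pi.add_apply,
        add_comm]
    | neg a _ ha =>
      obtain ⟨ω, hω, ha⟩ := ha
      refine ⟨ω⁻¹, inv_mem hω, fun i => ?_⟩
      have h1 : ω (ζ ^ ((-a) i).val * y i) = y i := by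
        rw [map_mul, hmulfix ω hω, ha, ← mul_assoc, ← pow_add]
        have h2 : ζ ^ (((-a) i).val + (a i).val) = ζ ^ 0 := by
          apply prim_pow_cast hl.pos hζ
          push_cast
          rw [ZMod.natCast_zmod_val, ZMod.natCast_zmod_val, Pi.neg_apply, neg_add_cancel]
        rw [h2, pow_zero, one_mul]
      calc ω⁻¹ (y i) = ω⁻¹ (ω (ζ ^ ((-a) i).val * y i)) := by rw [h1]
        _ = (ω⁻¹ * ω) (ζ ^ ((-a) i).val * y i) := rfl
        _ = _ := by rw [inv_mul_cancel, AlgEquiv.one_apply]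
  let H : Submodule (ZMod l) (ι → ZMod l) := AddSubgroup.toZModSubmodule l H₀
  have hmem : ∀ k, k ∈ H ↔ k ∈ H₀ := fun k => Iff.rfl
  by_cases hsingle : (Pi.single i₀ 1 : ι → ZMod l) ∈ H
  · obtain ⟨ω, hω, h1⟩ := hH₀ _ ((hmem _).1 hsingle)
    refine ⟨ω, hω, ?_, ?_⟩
    · have h2 := h1 i₀
      rw [Pi.single_eq_same] at h2
      rw [h2]
      congr 1
      have h3 : ζ ^ (1 : ZMod l).val = ζ ^ 1 := by
        apply prim_pow_cast hl.pos hζ
        rw [ZMod.natCast_zmod_val, Nat.cast_one]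
      rw [h3, pow_one]
    · intro i hi
      have h2 := h1 i
      rw [Pi.single_eq_of_ne hi, ZMod.val_zero, pow_zero, one_mul] at h2
      exact h2
  · exfalso
    obtain ⟨f, hf, hfH⟩ := Submodule.exists_le_ker_of_notMem hsingle
    let e : ι → ℕ := fun i => (f (Pi.single i 1)).val
    have hf' : ∀ k : ι → ZMod l, f k = ∑ i, k i * f (Pi.single i 1) := by
      intro k
      conv_lhs => rw [← Finset.univ_sum_single k]
      rw [map_sum]
      refine Finset.sum_congr rfl fun i _ => ?_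
      have h2 : (Pi.single i (k i) : ι → ZMod l) = k i • (Pi.single i 1 : ι → ZMod l) := by
        rw [← Pi.single_smul, smul_eq_mul, mul_one]
      rw [h2, map_smul, smul_eq_mul]
    have h2 : ∏ i, y i ^ e i ∈ M := by
      apply fixed_mem
      intro ω hω
      choose k hk using fun i => exists_kexp M hl.pos hζ ω hω (hy i) (hy0 i)
      have h3 : (fun i => (k i : ZMod l)) ∈ H := by
        rw [hmem]
        apply AddSubgroup.subset_closure
        refine ⟨ω, hω, fun i => ?_⟩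
        rw [hk]
        congr 1
        apply prim_pow_cast hl.pos hζ
        rw [ZMod.natCast_zmod_val]
      have h4 : f (fun i => (k i : ZMod l)) = 0 := hfH h3
      rw [hf'] at h4
      rw [map_prod]
      have h5 : ∀ i, ω (y i ^ e i) = ζ ^ (k i * e i) * y i ^ e i := by
        intro i
        rw [map_pow, hk, mul_pow, ← pow_mul]
      rw [Finset.prod_congr rfl fun i _ => h5 i, Finset.prod_mul_distrib, Finset.prod_pow_eq_pow_sum]
      have h6 : ζ ^ (∑ i, k i * e i) = ζ ^ 0 := by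
        apply prim_pow_cast hl.pos hζ
        push_cast
        rw [← h4]
        refine Finset.sum_congr rfl fun i _ => ?_
        rw [ZMod.natCast_zmod_val]
      rw [h6, pow_zero, one_mul]
    have h3 := h e h2
    apply hf
    rw [← ZMod.natCast_eq_zero_iff, ZMod.natCast_zmod_val] at h3
    exact h3

end Kum

end Vale.Agent.P024.H409
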