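import Vale.Agent.P024.H409.Comm2

/-!
P024: commuting normal subgroups.
-/

namespace Vale.Agent.P024.H409

open scoped NumberField ENNReal Topology
open IsDedekindDomain NumberField Filter

section Pair

variable (M : Type*) [Field M] [NumberField M] [IsGalois ℚ M]

theorem pull_one (w : HeightOneSpectrum (𝓞 M)) :
    pullPrime ((1 : M ≃ₐ[ℚ] M) : M →+* M) w = w := by
  apply HeightOneSpectrum.ext
  ext x
  rw [mem_pullPrime]
  have h1 : RingOfIntegers.mapRingHom ((1 : M ≃ₐ[ℚ] M) : M →+* M) x = x := by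
    apply NumberField.RingOfIntegers.ext
    rfl
  rw [h1]

theorem pull_mul (σ τ : M ≃ₐ[ℚ] M) (w : HeightOneSpectrum (𝓞 M)) :
    pullPrime (σ : M →+* M) (pullPrime (τ : M →+* M) w) =
      pullPrime ((τ * σ : M ≃ₐ[ℚ] M) : M →+* M) w := by
  apply HeightOneSpectrum.ext
  ext x
  rw [mem_pullPrime, mem_pullPrime, mem_pullPrime]
  have h1 : RingOfIntegers.mapRingHom (τ : M →+* M) (RingOfIntegers.mapRingHom
      (σ : M →+* M) x) = RingOfIntegers.mapRingHom ((τ * σ : M ≃ₐ[ℚ] M) : M →+* M) x := by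
    apply NumberField.RingOfIntegers.ext
    rfl
  rw [h1]

/-- Two primes and two elements with independent valuations at all conjugates. -/
theorem exists_pair : ∃ (w : Bool → HeightOneSpectrum (𝓞 M)) (z : Bool → M),
    (∀ i, z i ≠ 0) ∧ (∀ i, (w i).valuation M (z i) = WithZero.exp (-1 : ℤ)) ∧
      (∀ i, ∀ τ : M ≃ₐ[ℚ] M, τ ≠ 1 → (w i).valuation M (τ (z i)) = 1) ∧
      ∀ i, ∀ τ : M ≃ₐ[ℚ] M, (w i).valuation M (τ (z (!i))) = 1 := by
  classical
  have hfin : Finite (M ≃ₐ[ℚ] M) := inferInstance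
  obtain ⟨w₀, -, -, h₀⟩ := exists_split (M := M) ∅ Set.finite_empty
  obtain ⟨w₁, h₁', -, h₁⟩ := exists_split (M := M)
    (Set.range fun τ : M ≃ₐ[ℚ] M => pullPrime (τ : M →+* M) w₀) (Set.finite_range _)
  let w : Bool → HeightOneSpectrum (𝓞 M) := fun i => if i then w₁ else w₀
  have hst : ∀ i, ∀ τ : M ≃ₐ[ℚ] M, pullPrime (τ : M →+* M) (w i) = w i → τ = 1 := by
    intro i τ hτ
    cases i
    · exact h₀ τ 1 (by rw [pull_one]; exact hτ)
    · exact h₁ τ 1 (by rw [pull_one]; exact hτ)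
  have hne : ∀ i, ∀ τ : M ≃ₐ[ℚ] M, pullPrime (τ : M →+* M) (w i) ≠ w (!i) := by
    intro i τ hτ
    cases i
    · exact h₁' ⟨τ, hτ⟩
    · refine h₁' ⟨τ⁻¹, ?_⟩
      have h2 : pullPrime (τ : M →+* M) w₁ = w₀ := hτ
      show pullPrime ((τ⁻¹ : M ≃ₐ[ℚ] M) : M →+* M) w₀ = w₁
      rw [← h2, pull_mul, mul_inv_cancel, pull_one]
  let T : Bool → Set (HeightOneSpectrum (𝓞 M)) := fun i =>
    (Set.range fun τ : M ≃ₐ[ℚ] M => pullPrime (τ : M →+* M) (w (!i))) ∪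
      ((fun τ : M ≃ₐ[ℚ] M => pullPrime (τ : M →+* M) (w i)) '' {τ | τ ≠ 1})
  have hT : ∀ i, (T i).Finite := fun i => (Set.finite_range _).union (Set.toFinite _)
  have hz : ∀ i, ∃ z : 𝓞 M, (w i).valuation M (z : M) = WithZero.exp (-1 : ℤ) ∧
      ∀ P ∈ (hT i).toFinset, P.valuation M (z : M) = 1 := by
    intro i
    apply exists_elt
    rw [Set.Finite.mem_toFinset]
    rintro (⟨τ, hτ⟩ | ⟨τ, hτ, hτ'⟩)
    · have h2 := hne (!i) τ
      rw [Bool.not_not] at h2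
      exact h2 hτ
    · exact hτ (hst i τ hτ')
  choose z hz1 hz2 using hz
  refine ⟨w, fun i => (z i : M), ?_, hz1, ?_, ?_⟩
  · intro i h
    have h2 := hz1 i
    have h3 : ((z i : 𝓞 M) : M) = 0 := h
    rw [h3, map_zero] at h2
    exact WithZero.exp_ne_zero h2.symm
  · intro i τ hτ
    refine valuation_pull_eq_one (τ : M →+* M) (w i) (hz2 i _ ?_)
    rw [Set.Finite.mem_toFinset]
    exact Or.inr ⟨τ, hτ, rfl⟩
  · intro i τ
    refine valuation_pull_eq_one (τ : M →+* M) (w i) (hz2 (!i) _ ?_)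
    rw [Set.Finite.mem_toFinset]
    left
    rw [Bool.not_not]
    exact ⟨τ, rfl⟩

end Pair

section Comm

variable {E : Type*} [Field E] [CharZero E] [IsGalois ℚ E]
  (M : IntermediateField ℚ E) {l : ℕ} {ζ : E}

/-- The action of a commutator on a root. -/
theorem commutator_apply (a : E ≃ₐ[ℚ] E) {m : ℕ} (ham : a ζ = ζ ^ m)
    (ω : E ≃ₐ[ℚ] E) (hωζ : ω ζ = ζ) {x : E} {p q : ℕ} (hp : ω x = ζ ^ p * x)
    (hq : ω (a⁻¹ x) = ζ ^ q * a⁻¹ x) :
    ζ ^ (m * q) * (ω * a * ω⁻¹ * a⁻¹) x = ζ ^ p * x := by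
  have h0 : ω⁻¹ ζ = ζ := by
    have : ω⁻¹ (ω ζ) = ζ := by rw [← AlgEquiv.mul_apply, inv_mul_cancel, AlgEquiv.one_apply]
    rwa [hωζ] at this
  have h1 : ζ ^ q * ω⁻¹ (a⁻¹ x) = a⁻¹ x := by
    have h2 : ω⁻¹ (ω (a⁻¹ x)) = a⁻¹ x := by
      rw [← AlgEquiv.mul_apply, inv_mul_cancel, AlgEquiv.one_apply]
    rw [hq, map_mul, map_pow, h0] at h2
    exact h2
  have h3 := congrArg (fun t => ω (a t)) h1
  simp only [map_mul, map_pow, ham, hωζ] at h3
  have h4 : a (a⁻¹ x) = x := by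
    rw [← AlgEquiv.mul_apply, mul_inv_cancel, AlgEquiv.one_apply]
  rw [h4, hp, ← pow_mul] at h3
  exact h3

theorem comm_core [FiniteDimensional ℚ M] [IsGalois ℚ M] [Fact l.Prime] (hl2 : l ≠ 2)
    (hroot : ∀ x : E, ∃ y : E, y ^ l = x) (hζ : IsPrimitiveRoot ζ l) (hζM : ζ ∈ M)
    (a b : E ≃ₐ[ℚ] E)
    (hcomm : ∀ ω ∈ M.fixingSubgroup,
      (ω * a * ω⁻¹ * a⁻¹) * b = b * (ω * a * ω⁻¹ * a⁻¹)) :
    (∀ x ∈ M, a x = x) ∨ (∀ x ∈ M, b x = x) := by
  classical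
  have hl : l.Prime := Fact.out
  have hnf : NumberField M := ⟨⟩
  by_contra hcon
  rw [not_or] at hcon
  set A : M ≃ₐ[ℚ] M := a.restrictNormal M with hA
  set B : M ≃ₐ[ℚ] M := b.restrictNormal M with hB
  have hAx : ∀ x : M, ((A x : M) : E) = a (x : E) := fun x => a.restrictNormal_commutes M x
  have hBx : ∀ x : M, ((B x : M) : E) = b (x : E) := fun x => b.restrictNormal_commutes M x
  have hAi : ∀ x : M, ((A⁻¹ x : M) : E) = a⁻¹ (x : E) := by
    intro x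
    have h1 : a ((A⁻¹ x : M) : E) = (x : E) := by
      rw [← hAx, ← AlgEquiv.mul_apply, mul_inv_cancel, AlgEquiv.one_apply]
    rw [← h1, ← AlgEquiv.mul_apply, inv_mul_cancel, AlgEquiv.one_apply]
  have hA1 : A ≠ 1 := by
    intro h
    apply hcon.1
    intro x hx
    have h1 := hAx ⟨x, hx⟩
    rw [h] at h1
    exact h1.symm
  have hB1 : B ≠ 1 := by
    intro h
    apply hcon.2
    intro x hx
    have h1 := hBx ⟨x, hx⟩
    rw [h] at h1
    exact h1.symm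
  obtain ⟨w', z', hz0', hz1', hval', -⟩ := exists_pair M
  set w := w' true with hw
  set z := z' true with hz
  have hz0 : z ≠ 0 := hz0' true
  have hz1 : w.valuation M z = WithZero.exp (-1 : ℤ) := hz1' true
  have hval : ∀ τ : M ≃ₐ[ℚ] M, τ ≠ 1 → w.valuation M (τ z) = 1 := hval' true
  obtain ⟨y, hy⟩ := hroot (z : E)
  have hy0 : y ≠ 0 := by
    rintro rfl
    rw [zero_pow hl.ne_zero] at hy
    exact hz0 (Subtype.ext hy.symm)
  obtain ⟨m, hm⟩ := exists_exp_root a hl.pos hζ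
  obtain ⟨n, hn⟩ := exists_exp_root b hl.pos hζ
  -- the roots
  have hyl : y ^ l ∈ M := by rw [hy]; exact SetLike.coe_mem _
  have hay : (a⁻¹ y) ^ l = ((A⁻¹ z : M) : E) := by rw [← map_pow, hy, hAi]
  have hby : (b y) ^ l = ((B z : M) : E) := by rw [← map_pow, hy, hBx]
  have haby : (a⁻¹ (b y)) ^ l = ((A⁻¹ (B z) : M) : E) := by rw [← map_pow, hby, hAi]
  have hay0 : a⁻¹ y ≠ 0 := (map_ne_zero _).2 hy0
  have hby0 : b y ≠ 0 := (map_ne_zero _).2 hy0
  have haby0 : a⁻¹ (b y) ≠ 0 := (map_ne_zero _).2 hby0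
  set Y : E := (b y * (a⁻¹ y) ^ (m * n)) / ((a⁻¹ (b y)) ^ m * y ^ n) with hY
  have hYM : Y ∈ M := by
    apply fixed_mem
    intro ω hω
    have hωζ : ω ζ = ζ := fix_apply M hω hζM
    obtain ⟨α, hα⟩ := exists_kexp M hl.pos hζ ω hω hyl hy0
    obtain ⟨β, hβ⟩ := exists_kexp M hl.pos hζ ω hω
      (show (a⁻¹ y) ^ l ∈ M by rw [hay]; exact SetLike.coe_mem _) hay0
    obtain ⟨γ, hγ⟩ := exists_kexp M hl.pos hζ ω hω
      (show (b y) ^ l ∈ M by rw [hby]; exact SetLike.coe_mem _) hby0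
    obtain ⟨δ, hδ⟩ := exists_kexp M hl.pos hζ ω hω
      (show (a⁻¹ (b y)) ^ l ∈ M by rw [haby]; exact SetLike.coe_mem _) haby0
    have r1 := commutator_apply a hm ω hωζ hα hβ
    have r2 := commutator_apply a hm ω hωζ hγ hδ
    set c := ω * a * ω⁻¹ * a⁻¹ with hc
    have hcb : c (b y) = b (c y) := DFunLike.congr_fun (hcomm ω hω) y
    have r3 := congrArg b r1
    rw [map_mul, map_mul, map_pow, map_pow, hn, ← hcb, ← pow_mul, ← pow_mul] at r3
    -- `ζ ^ (n m β + γ) = ζ ^ (n α + m δ)`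
    have r4 : ζ ^ (n * (m * β)) * ζ ^ γ = ζ ^ (n * α) * ζ ^ (m * δ) := by
      apply mul_right_cancel₀ hby0
      calc ζ ^ (n * (m * β)) * ζ ^ γ * b y = ζ ^ (n * (m * β)) * (ζ ^ γ * b y) := by ring
        _ = ζ ^ (n * (m * β)) * (ζ ^ (m * δ) * c (b y)) := by rw [r2]
        _ = (ζ ^ (n * (m * β)) * c (b y)) * ζ ^ (m * δ) := by ring
        _ = ζ ^ (n * α) * b y * ζ ^ (m * δ) := by rw [r3]
        _ = _ := by ring
    have hζ0 : ζ ≠ 0 := hζ.ne_zero hl.ne_zero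
    rw [hY, map_div₀, map_mul, map_mul, map_pow, map_pow, map_pow, hα, hβ, hγ, hδ]
    have e1 : ζ ^ γ * b y * (ζ ^ β * a⁻¹ y) ^ (m * n) =
        (ζ ^ (n * (m * β)) * ζ ^ γ) * (b y * (a⁻¹ y) ^ (m * n)) := by
      rw [mul_pow, ← pow_mul]
      ring
    have e2 : (ζ ^ δ * a⁻¹ (b y)) ^ m * (ζ ^ α * y) ^ n =
        (ζ ^ (n * α) * ζ ^ (m * δ)) * ((a⁻¹ (b y)) ^ m * y ^ n) := by
      rw [mul_pow, mul_pow, ← pow_mul, ← pow_mul]
      ring
    rw [e1, e2, r4]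
    exact mul_div_mul_left _ _ (mul_ne_zero (pow_ne_zero _ hζ0) (pow_ne_zero _ hζ0))
  -- the relation in `M`
  have hY0 : Y ≠ 0 := div_ne_zero (mul_ne_zero hby0 (pow_ne_zero _ hay0))
    (mul_ne_zero (pow_ne_zero _ haby0) (pow_ne_zero _ hy0))
  let t : M := ⟨Y, hYM⟩
  have ht0 : t ≠ 0 := fun h => hY0 (congrArg Subtype.val h)
  have hrel : t ^ l * ((A⁻¹ (B z)) ^ m * z ^ n) = B z * (A⁻¹ z) ^ (m * n) := by
    apply Subtype.ext
    push_cast
    rw [← hby, ← haby, ← hay, ← hy]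
    show Y ^ l * _ = _
    rw [hY, div_pow, mul_pow, mul_pow]
    field_simp
    ring
  have hv := congrArg (w.valuation M) hrel
  have hAi1 : A⁻¹ ≠ 1 := inv_ne_one.2 hA1
  rw [map_mul, map_mul, map_mul, map_pow, map_pow, map_pow, map_pow, hval B hB1, hval A⁻¹ hAi1,
    one_pow, mul_one, hz1] at hv
  have hvt : w.valuation M t ≠ 0 := (Valuation.ne_zero_iff _).2 ht0
  have hbζ : ¬ l ∣ n := by
    rintro ⟨k, hk⟩
    rw [hk, pow_mul, hζ.pow_eq_one, one_pow] at hn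
    have h1 : ζ = 1 := b.injective (by rw [hn, map_one])
    rw [h1] at hζ
    exact hl.one_lt.ne' (hζ.unique IsPrimitiveRoot.one)
  by_cases hAB : A⁻¹ * B = 1
  · have h1 : A⁻¹ (B z) = z := by
      rw [← AlgEquiv.mul_apply, hAB, AlgEquiv.one_apply]
    rw [h1, hz1, ← WithZero.exp_log hvt] at hv
    have h2 := congrArg WithZero.log hv
    have hmn : (m : ZMod l) = (n : ZMod l) := by
      have h3 : A = B := inv_mul_eq_one.1 hAB
      have h4 : a ζ = b ζ := by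
        have h5 := hAx ⟨ζ, hζM⟩
        have h6 := hBx ⟨ζ, hζM⟩
        rw [h3] at h5
        exact h5.symm.trans h6
      rw [hm, hn, rootPow_eq_iff_modEq hζ m n hl.pos, ← ZMod.natCast_eq_natCast_iff] at h4
      exact h4
    rw [← WithZero.exp_nsmul, ← WithZero.exp_nsmul, ← WithZero.exp_nsmul, ← WithZero.exp_add,
      ← WithZero.exp_add, WithZero.log_exp, WithZero.log_one] at h2
    simp only [nsmul_eq_mul] at h2
    have h3 : (l : ℤ) ∣ (m : ℤ) + n := ⟨WithZero.log (w.valuation M t), by linarith⟩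
    have h4 : (((m : ℤ) + n : ℤ) : ZMod l) = 0 := (ZMod.intCast_zmod_eq_zero_iff_dvd _ _).2 h3
    push_cast at h4
    rw [hmn, ← two_mul] at h4
    rcases mul_eq_zero.1 h4 with h5 | h5
    · exact Rigid.zmod_two_ne hl2 h5
    · exact hbζ ((ZMod.natCast_eq_zero_iff _ _).1 h5)
  · have h1 : w.valuation M (A⁻¹ (B z)) = 1 := hval (A⁻¹ * B) hAB
    rw [h1, one_pow, one_mul, ← WithZero.exp_log hvt] at hv
    have h2 := congrArg WithZero.log hv
    rw [← WithZero.exp_nsmul, ← WithZero.exp_nsmul, ← WithZero.exp_add, WithZero.log_exp,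
      WithZero.log_one] at h2
    simp only [nsmul_eq_mul] at h2
    have h3 : (l : ℤ) ∣ (n : ℤ) := ⟨WithZero.log (w.valuation M t), by linarith⟩
    exact hbζ (by exact_mod_cast h3)

end Comm

end Vale.Agent.P024.H409
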