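import Vale.Agent.P024.H409.Comm3
import Vale.Agent.P024.M4.Spec

/-!
P024: commuting normal subgroups of Galois groups of solvably closed fields.
-/

namespace Vale.Agent.P024.H409

open scoped NumberField ENNReal Topology
open IsDedekindDomain NumberField Filter

section

variable {E : Type*} [Field E] [CharZero E] [IsGalois ℚ E]

/-- A finite Galois extension inside `E` containing finitely many given elements, whose group is
contained in a given open subgroup. -/
theorem exists_good (U : Subgroup (E ≃ₐ[ℚ] E)) (hU : IsOpen (U : Set (E ≃ₐ[ℚ] E)))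
    (s : Finset E) : ∃ M : IntermediateField ℚ E, FiniteDimensional ℚ M ∧ IsGalois ℚ M ∧
      (∀ x ∈ s, x ∈ M) ∧ M.fixingSubgroup ≤ U := by
  classical
  obtain ⟨L, hL1, hL2, hL3⟩ := (krullTopology_mem_nhds_one_iff_of_normal ℚ E
    (U : Set (E ≃ₐ[ℚ] E))).1 (hU.mem_nhds (one_mem U))
  let A : IntermediateField ℚ E := IntermediateField.adjoin ℚ (s : Set E)
  have hA : FiniteDimensional ℚ A := by
    have : Finite (s : Set E) := Finset.finite_toSet s
    exact IntermediateField.finiteDimensional_adjoin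
      (fun x _ => (Algebra.IsIntegral.isIntegral x))
  have hLA : FiniteDimensional ℚ (L ⊔ A : IntermediateField ℚ E) :=
    IntermediateField.finiteDimensional_sup L A
  refine ⟨IntermediateField.normalClosure ℚ (L ⊔ A : IntermediateField ℚ E) E,
    normalClosure.is_finiteDimensional ℚ _ E, ?_, ?_, ?_⟩
  · have : Normal ℚ (IntermediateField.normalClosure ℚ (L ⊔ A : IntermediateField ℚ E) E) :=
      normalClosure.normal ℚ _ E
    exact ⟨⟩
  · intro x hx
    exact IntermediateField.le_normalClosure _ ((le_sup_right : A ≤ L ⊔ A)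
      (IntermediateField.subset_adjoin ℚ _ hx))
  · refine le_trans ?_ (show L.fixingSubgroup ≤ U from hL3)
    exact IntermediateField.fixingSubgroup_antitone
      ((le_sup_left : L ≤ L ⊔ A).trans (IntermediateField.le_normalClosure _))

theorem exists_apply_ne {a : E ≃ₐ[ℚ] E} (ha : a ≠ 1) : ∃ x, a x ≠ x := by
  by_contra h
  push_neg at h
  exact ha (AlgEquiv.ext h)

/-- If the commutators `[ω, a]` with `ω` in an open subgroup commute with `b` then `a` or `b` is
trivial. -/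
theorem eq_one_or (hE : SolvablyClosed E) (U : Subgroup (E ≃ₐ[ℚ] E))
    (hU : IsOpen (U : Set (E ≃ₐ[ℚ] E))) (a b : E ≃ₐ[ℚ] E)
    (hcomm : ∀ ω ∈ U, (ω * a * ω⁻¹ * a⁻¹) * b = b * (ω * a * ω⁻¹ * a⁻¹)) : a = 1 ∨ b = 1 := by
  classical
  by_contra hcon
  rw [not_or] at hcon
  obtain ⟨x, hx⟩ := exists_apply_ne hcon.1
  obtain ⟨y, hy⟩ := exists_apply_ne hcon.2
  obtain ⟨ζ, hζ⟩ := hE.exists_primitiveRoot 3 (by norm_num)
  obtain ⟨M, hM1, hM2, hM3, hM4⟩ := exists_good U hU {x, y, ζ}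
  have hf : Fact (Nat.Prime 3) := ⟨Nat.prime_three⟩
  have hnf : NumberField M := ⟨⟩
  rcases comm_core M (l := 3) (by norm_num) (fun t => hE.exists_root 3 (by norm_num) t) hζ
    (hM3 ζ (by simp)) a b (fun ω hω => hcomm ω (hM4 hω)) with h | h
  · exact hx (h x (hM3 x (by simp)))
  · exact hy (h y (hM3 y (by simp)))

/-- The centralizer of an open subgroup is trivial. -/
theorem centralizer_open (hE : SolvablyClosed E) (U : Subgroup (E ≃ₐ[ℚ] E))
    (hU : IsOpen (U : Set (E ≃ₐ[ℚ] E))) (b : E ≃ₐ[ℚ] E) (h : ∀ x ∈ U, b * x = x * b) : b = 1 := by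
  rcases eq_one_or hE U hU b b (fun ω hω => by
    have h1 : ω * b * ω⁻¹ * b⁻¹ = 1 := by
      rw [← h ω hω]
      group
    rw [h1, one_mul, mul_one]) with h1 | h1 <;> exact h1

/-- Commuting subgroups, one of them normalized by an open subgroup. -/
theorem comm_bot (hE : SolvablyClosed E) (U : Subgroup (E ≃ₐ[ℚ] E))
    (hU : IsOpen (U : Set (E ≃ₐ[ℚ] E))) (A B : Subgroup (E ≃ₐ[ℚ] E))
    (hA : ∀ w ∈ U, ∀ x ∈ A, w * x * w⁻¹ ∈ A) (hAB : ∀ x ∈ A, ∀ y ∈ B, x * y = y * x) :
    A = ⊥ ∨ B = ⊥ := by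
  by_contra hcon
  rw [not_or, Subgroup.eq_bot_iff_forall, Subgroup.eq_bot_iff_forall] at hcon
  push_neg at hcon
  obtain ⟨⟨a, ha, ha1⟩, ⟨b, hb, hb1⟩⟩ := hcon
  rcases eq_one_or hE U hU a b (fun ω hω =>
    hAB _ (mul_mem (hA ω hω a ha) (inv_mem ha)) b hb) with h | h
  · exact ha1 h
  · exact hb1 h

end

theorem propCOMM : M4.PropCOMM := by
  intro E _ _ _ hE W A B hW _ _ hA _ hA1 hB1
  by_contra h
  push_neg at h
  rcases comm_bot hE W hW A B hA h with h1 | h1
  · exact hA1 h1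
  · exact hB1 h1

end Vale.Agent.P024.H409
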