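import Vale.Agent.P024.Bdl.B2

/-!
P024: densities of sets of primes of number fields, in the form of two-sided bounds for
`∑ N(w)^{-s}` as `s → 1+`.
-/

namespace Vale.Agent.P024.H409

open scoped NumberField ENNReal Topology
open IsDedekindDomain NumberField Filter

section Basic

variable (K : Type*) [Field K] [NumberField K]

/-- the sum of `N(w)^{-s}` over the primes in `B` -/
noncomputable def sg (B : Set (HeightOneSpectrum (𝓞 K))) (s : ℝ) : ℝ≥0∞ :=
  ∑' w : B, ENNReal.ofReal (nm K w.1 s)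

/-- the sum over `B` is `c log (1 / (s - 1))` up to a bounded error -/
def HasDens (B : Set (HeightOneSpectrum (𝓞 K))) (c : ℝ) : Prop :=
  ∃ C : ℝ, ∀ᶠ s : ℝ in 𝓝[>] 1, |(sg K B s).toReal - c * Real.log (1 / (s - 1))| ≤ C

variable {K}

theorem sg_mono {B B' : Set (HeightOneSpectrum (𝓞 K))} (h : B ⊆ B') (s : ℝ) :
    sg K B s ≤ sg K B' s :=
  ENNReal.tsum_mono_subtype (fun w : HeightOneSpectrum (𝓞 K) => ENNReal.ofReal (nm K w s)) h

theorem sg_union {B B' : Set (HeightOneSpectrum (𝓞 K))} (h : Disjoint B B') (s : ℝ) :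
    sg K (B ∪ B') s = sg K B s + sg K B' s :=
  Summable.tsum_union_disjoint (f := fun w : HeightOneSpectrum (𝓞 K) => ENNReal.ofReal (nm K w s))
    h ENNReal.summable ENNReal.summable

theorem sg_univ (s : ℝ) : sg K Set.univ s =
    ∑' w : HeightOneSpectrum (𝓞 K), ENNReal.ofReal (nm K w s) :=
  tsum_univ (fun w : HeightOneSpectrum (𝓞 K) => ENNReal.ofReal (nm K w s))

variable (K) in
theorem eventually_sg : ∀ᶠ s : ℝ in 𝓝[>] 1, ∀ B : Set (HeightOneSpectrum (𝓞 K)),
    sg K B s ≠ ∞ := by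
  obtain ⟨C, hC⟩ := upper K
  filter_upwards [hC] with s hs B
  have h1 : sg K B s ≤ ENNReal.ofReal (Real.log (1 / (s - 1)) + C) := by
    refine (sg_mono (Set.subset_univ B) s).trans ?_
    rw [sg_univ]
    exact hs
  exact ne_top_of_le_ne_top ENNReal.ofReal_ne_top h1

theorem HasDens.union {B B' : Set (HeightOneSpectrum (𝓞 K))} {c c' : ℝ} (hB : HasDens K B c)
    (hB' : HasDens K B' c') (h : Disjoint B B') : HasDens K (B ∪ B') (c + c') := by
  obtain ⟨C, hC⟩ := hB
  obtain ⟨C', hC'⟩ := hB'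
  refine ⟨C + C', ?_⟩
  filter_upwards [hC, hC', eventually_sg K] with s h1 h2 h3
  rw [sg_union h, ENNReal.toReal_add (h3 _) (h3 _)]
  calc |(sg K B s).toReal + (sg K B' s).toReal - (c + c') * Real.log (1 / (s - 1))|
      = |((sg K B s).toReal - c * Real.log (1 / (s - 1))) +
          ((sg K B' s).toReal - c' * Real.log (1 / (s - 1)))| := by ring_nf
    _ ≤ _ := (abs_add_le _ _).trans (add_le_add h1 h2)

theorem HasDens.diff {B B' : Set (HeightOneSpectrum (𝓞 K))} {c c' : ℝ} (hB : HasDens K B c)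
    (hB' : HasDens K B' c') (h : B' ⊆ B) : HasDens K (B \ B') (c - c') := by
  obtain ⟨C, hC⟩ := hB
  obtain ⟨C', hC'⟩ := hB'
  refine ⟨C + C', ?_⟩
  filter_upwards [hC, hC', eventually_sg K] with s h1 h2 h3
  have h4 : sg K B s = sg K (B \ B') s + sg K B' s := by
    rw [← sg_union Set.disjoint_sdiff_left, Set.sdiff_union_of_subset h]
  have h5 : (sg K (B \ B') s).toReal = (sg K B s).toReal - (sg K B' s).toReal := by
    rw [h4, ENNReal.toReal_add (h3 _) (h3 _)]
    ring
  rw [h5]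
  calc |(sg K B s).toReal - (sg K B' s).toReal - (c - c') * Real.log (1 / (s - 1))|
      = |((sg K B s).toReal - c * Real.log (1 / (s - 1))) -
          ((sg K B' s).toReal - c' * Real.log (1 / (s - 1)))| := by ring_nf
    _ ≤ _ := (abs_sub _ _).trans (add_le_add h1 h2)

theorem hasDens_finite {B : Set (HeightOneSpectrum (𝓞 K))} (h : B.Finite) : HasDens K B 0 := by
  refine ⟨h.toFinset.card, ?_⟩
  filter_upwards [self_mem_nhdsWithin] with s hs
  have hs1 : (1 : ℝ) < s := hs
  rw [zero_mul, sub_zero, abs_of_nonneg ENNReal.toReal_nonneg]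
  have h1 := tsum_finite_le K h hs1
  have h2 := ENNReal.toReal_mono (ENNReal.natCast_ne_top _) h1
  rwa [ENNReal.toReal_natCast] at h2

theorem HasDens.diff_finite {B S : Set (HeightOneSpectrum (𝓞 K))} {c : ℝ} (hB : HasDens K B c)
    (hS : S.Finite) : HasDens K (B \ S) c := by
  have h1 : B \ S = B \ (B ∩ S) := by ext; simp
  rw [h1]
  have := hB.diff (hasDens_finite (hS.subset (Set.inter_subset_right (s := B))))
    Set.inter_subset_left
  rwa [sub_zero] at this

theorem HasDens.congr {B B' : Set (HeightOneSpectrum (𝓞 K))} {c : ℝ} (hB : HasDens K B c)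
    (S : Set (HeightOneSpectrum (𝓞 K))) (hS : S.Finite) (h : B \ S = B' \ S) :
    HasDens K B' c := by
  have h1 := (hB.diff_finite hS).union (hasDens_finite (hS.subset (Set.inter_subset_right
    (s := B')))) (by
      rw [h, Set.disjoint_left]
      rintro w ⟨-, h1⟩ ⟨-, h2⟩
      exact h1 h2)
  rw [h, Set.sdiff_union_inter, add_zero] at h1
  exact h1

theorem hasDens_biUnion {ι : Type*} [DecidableEq ι] (I : Finset ι)
    (B : ι → Set (HeightOneSpectrum (𝓞 K))) (c : ι → ℝ)
    (hd : ∀ i ∈ I, ∀ j ∈ I, i ≠ j → Disjoint (B i) (B j)) (h : ∀ i ∈ I, HasDens K (B i) (c i)) :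
    HasDens K (⋃ i ∈ I, B i) (∑ i ∈ I, c i) := by
  induction I using Finset.induction_on with
  | empty =>
    simp only [Finset.notMem_empty, Set.iUnion_of_empty, Set.iUnion_empty, Finset.sum_empty]
    exact hasDens_finite Set.finite_empty
  | insert i I hi ih =>
    rw [Finset.sum_insert hi, Finset.set_biUnion_insert]
    refine HasDens.union (h i (Finset.mem_insert_self _ _)) (ih ?_ ?_) ?_
    · exact fun a ha b hb => hd a (Finset.mem_insert_of_mem ha) b (Finset.mem_insert_of_mem hb)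
    · exact fun a ha => h a (Finset.mem_insert_of_mem ha)
    · rw [Set.disjoint_iUnion₂_right]
      intro j hj
      refine hd i (Finset.mem_insert_self _ _) j (Finset.mem_insert_of_mem hj) ?_
      rintro rfl
      exact hi hj

variable (K) in
theorem hasDens_one : HasDens K {w | (Ideal.absNorm w.asIdeal).Prime} 1 := by
  obtain ⟨C, hC⟩ := upper K
  obtain ⟨C', hC'⟩ := lower K
  refine ⟨|C| + |C'|, ?_⟩
  filter_upwards [hC, hC', eventually_sg K, tendsto_log_one_div.eventually_ge_atTop (-C),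
    tendsto_log_one_div.eventually_ge_atTop 0] with s h1 h2 h3 h4 h5
  have h6 : (sg K {w | (Ideal.absNorm w.asIdeal).Prime} s).toReal ≤
      Real.log (1 / (s - 1)) + C := by
    have h7 : sg K {w | (Ideal.absNorm w.asIdeal).Prime} s ≤
        ENNReal.ofReal (Real.log (1 / (s - 1)) + C) := by
      refine (sg_mono (Set.subset_univ _) s).trans ?_
      rw [sg_univ]
      exact h1
    have h8 := ENNReal.toReal_mono ENNReal.ofReal_ne_top h7
    rwa [ENNReal.toReal_ofReal (by linarith)] at h8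
  have h9 : Real.log (1 / (s - 1)) - C' ≤
      (sg K {w | (Ideal.absNorm w.asIdeal).Prime} s).toReal := by
    rw [← ENNReal.ofReal_le_iff_le_toReal (h3 _)]
    exact h2
  rw [one_mul, abs_le]
  have := le_abs_self C
  have := le_abs_self C'
  have := abs_nonneg C
  have := abs_nonneg C'
  constructor <;> linarith

theorem HasDens.eventually_le {B : Set (HeightOneSpectrum (𝓞 K))} {c c' : ℝ} (hB : HasDens K B c)
    (hc : c' < c) : ∀ᶠ s : ℝ in 𝓝[>] 1,
      ENNReal.ofReal (c' * Real.log (1 / (s - 1))) ≤ sg K B s := by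
  obtain ⟨C, hC⟩ := hB
  filter_upwards [hC, eventually_sg K, tendsto_log_one_div.eventually_ge_atTop (C / (c - c'))]
    with s h1 h3 h4
  rw [ENNReal.ofReal_le_iff_le_toReal (h3 _)]
  rw [div_le_iff₀ (by linarith)] at h4
  have h5 := (abs_le.1 h1).1
  nlinarith

/-! ### Elements of given order -/

theorem hasDens_order {G : Type*} [Monoid G] {n : ℕ} (P₀ : Set (HeightOneSpectrum (𝓞 K)))
    (x : HeightOneSpectrum (𝓞 K) → G)
    (h : ∀ d : ℕ, d ∣ n → HasDens K {w | w ∈ P₀ ∧ x w ^ d = 1} ((d : ℝ) / n)) (hn : n ≠ 0) :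
    ∀ d : ℕ, d ∣ n → HasDens K {w | w ∈ P₀ ∧ orderOf (x w) = d} ((d.totient : ℝ) / n) := by
  intro d
  induction d using Nat.strong_induction_on with
  | _ d ih =>
    intro hd
    have hd0 : d ≠ 0 := fun h0 => hn (by rw [h0] at hd; exact zero_dvd_iff.1 hd)
    have h1 : {w | w ∈ P₀ ∧ orderOf (x w) = d} = {w | w ∈ P₀ ∧ x w ^ d = 1} \
        ⋃ c ∈ d.properDivisors, {w | w ∈ P₀ ∧ orderOf (x w) = c} := by
      ext w
      simp only [Set.mem_ofPred_eq, Set.mem_sdiff, Set.mem_iUnion, Nat.mem_properDivisors, not_exists,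
        not_and, exists_prop]
      constructor
      · rintro ⟨h1, h2⟩
        refine ⟨⟨h1, by rw [← h2]; exact pow_orderOf_eq_one _⟩, ?_⟩
        rintro c ⟨-, hc⟩ -
        omega
      · rintro ⟨⟨h1, h2⟩, h3⟩
        refine ⟨h1, ?_⟩
        by_contra hne
        have h4 := orderOf_dvd_of_pow_eq_one h2
        exact h3 _ ⟨h4, lt_of_le_of_ne (Nat.le_of_dvd (Nat.pos_of_ne_zero hd0) h4) hne⟩ h1 rfl
    have h2 : HasDens K (⋃ c ∈ d.properDivisors, {w | w ∈ P₀ ∧ orderOf (x w) = c})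
        (∑ c ∈ d.properDivisors, (c.totient : ℝ) / n) := by
      refine hasDens_biUnion _ _ _ ?_ ?_
      · intro i _ j _ hij
        rw [Set.disjoint_left]
        rintro w ⟨-, hw⟩ ⟨-, hw'⟩
        exact hij (hw.symm.trans hw')
      · intro c hc
        rw [Nat.mem_properDivisors] at hc
        exact ih c hc.2 (hc.1.trans hd)
    have h3 := (h d hd).diff h2 (by
      intro w hw
      simp only [Set.mem_iUnion, Nat.mem_properDivisors, exists_prop] at hw
      obtain ⟨c, ⟨hc, -⟩, hw1, hw2⟩ := hw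
      refine ⟨hw1, ?_⟩
      rw [← orderOf_dvd_iff_pow_eq_one, hw2]
      exact hc)
    rw [h1]
    convert h3 using 1
    have h4 := Nat.sum_totient d
    rw [← Nat.insert_self_properDivisors hd0, Finset.sum_insert Nat.self_notMem_properDivisors]
      at h4
    have h5 : (d : ℝ) = (d.totient : ℝ) + ∑ c ∈ d.properDivisors, (c.totient : ℝ) := by
      exact_mod_cast h4.symm
    rw [← Finset.sum_div, ← sub_div, h5]
    ring

end Basic

section Transfer

variable {K M : Type*} [Field K] [NumberField K] [Field M] [NumberField M]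

/-- fibres -/
theorem sg_fiber_eq {A : Set (HeightOneSpectrum (𝓞 M))} {B : Set (HeightOneSpectrum (𝓞 K))} {m : ℕ}
    (g : A → B) (hg : ∀ P : A, Ideal.absNorm P.1.asIdeal = Ideal.absNorm (g P).1.asIdeal)
    (hm : ∀ w : B, ENat.card (g ⁻¹' {w}) = (m : ℕ∞)) (s : ℝ) :
    sg M A s = m * sg K B s := by
  rw [sg, sg, ← ENNReal.tsum_fiberwise _ g, ← ENNReal.tsum_mul_left]
  refine tsum_congr fun w => ?_
  have h1 : ∀ P : (g ⁻¹' {w}), ENNReal.ofReal (nm M P.1.1 s) = ENNReal.ofReal (nm K w.1 s) := by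
    rintro ⟨P, hP⟩
    have hP' : g P = w := hP
    rw [nm, nm, hg, hP']
  rw [tsum_congr h1, ENNReal.tsum_const, hm w]
  rfl

theorem sg_fiber_le {A : Set (HeightOneSpectrum (𝓞 M))} {B : Set (HeightOneSpectrum (𝓞 K))} {m : ℕ}
    (g : A → B) (hg : ∀ P : A, Ideal.absNorm P.1.asIdeal = Ideal.absNorm (g P).1.asIdeal)
    (hm : ∀ w : B, ENat.card (g ⁻¹' {w}) ≤ (m : ℕ∞)) (s : ℝ) :
    sg M A s ≤ m * sg K B s := by
  rw [sg, sg, ← ENNReal.tsum_fiberwise _ g, ← ENNReal.tsum_mul_left]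
  refine ENNReal.tsum_le_tsum fun w => ?_
  have h1 : ∀ P : (g ⁻¹' {w}), ENNReal.ofReal (nm M P.1.1 s) = ENNReal.ofReal (nm K w.1 s) := by
    rintro ⟨P, hP⟩
    have hP' : g P = w := hP
    rw [nm, nm, hg, hP']
  rw [tsum_congr h1, ENNReal.tsum_const]
  gcongr
  have := hm w
  calc ((ENat.card (g ⁻¹' {w}) : ℕ∞) : ℝ≥0∞) ≤ ((m : ℕ∞) : ℝ≥0∞) := by exact_mod_cast this
    _ = m := rfl

theorem HasDens.of_fiber {A : Set (HeightOneSpectrum (𝓞 M))} {B : Set (HeightOneSpectrum (𝓞 K))}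
    {m : ℕ} (hm0 : m ≠ 0) (h : ∀ s : ℝ, sg M A s = m * sg K B s) {c : ℝ} (hA : HasDens M A c) :
    HasDens K B (c / m) := by
  obtain ⟨C, hC⟩ := hA
  refine ⟨C / m, ?_⟩
  have hm : (0 : ℝ) < m := by exact_mod_cast Nat.pos_of_ne_zero hm0
  filter_upwards [hC] with s hs
  rw [h, ENNReal.toReal_mul, ENNReal.toReal_natCast] at hs
  rw [le_div_iff₀ hm, ← abs_of_pos hm, ← abs_mul, abs_of_pos hm]
  calc _ = |(m : ℝ) * (sg K B s).toReal - c * Real.log (1 / (s - 1))| := by
        congr 1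
        field_simp
    _ ≤ C := hs

end Transfer

end Vale.Agent.P024.H409
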