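import Vale.Agent.P024.H409.Dens1
import Mathlib.RingTheory.Frobenius

/-!
P024: primes of degree one and their norms modulo `e`.
-/

namespace Vale.Agent.P024.H409

open scoped NumberField ENNReal Topology
open IsDedekindDomain NumberField Filter

section Over

variable {K M : Type*} [Field K] [NumberField K] [Field M] [NumberField M] [Algebra K M]

theorem liesOver_of_pull {P : HeightOneSpectrum (𝓞 M)} {w : HeightOneSpectrum (𝓞 K)}
    (h : pullPrime (algebraMap K M) P = w) : P.asIdeal.LiesOver w.asIdeal :=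
  ⟨by rw [← h]; rfl⟩

theorem encard_over (w : HeightOneSpectrum (𝓞 K)) :
    {P : HeightOneSpectrum (𝓞 M) | pullPrime (algebraMap K M) P = w}.encard =
      ((IsDedekindDomain.primesOverFinset w.asIdeal (𝓞 M)).card : ℕ∞) := by
  classical
  have hmax : w.asIdeal.IsMaximal := w.isMaximal
  have h1 : HeightOneSpectrum.asIdeal ''
      {P : HeightOneSpectrum (𝓞 M) | pullPrime (algebraMap K M) P = w} =
      (IsDedekindDomain.primesOverFinset w.asIdeal (𝓞 M) : Set (Ideal (𝓞 M))) := by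
    ext I
    rw [Finset.mem_coe, IsDedekindDomain.mem_primesOverFinset_iff w.ne_bot]
    constructor
    · rintro ⟨P, hP, rfl⟩
      exact ⟨P.isPrime, liesOver_of_pull hP⟩
    · rintro ⟨hI, hI'⟩
      have hI0 : I ≠ ⊥ := by
        rintro rfl
        have h2 := hI'.over
        rw [Ideal.under_def, Ideal.comap_bot_of_injective _
          (FaithfulSMul.algebraMap_injective (𝓞 K) (𝓞 M))] at h2
        exact w.ne_bot h2
      refine ⟨⟨I, hI, hI0⟩, ?_, rfl⟩
      apply HeightOneSpectrum.ext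
      exact hI'.over.symm
  rw [← Set.encard_coe_eq_coe_finsetCard, ← h1, Set.InjOn.encard_image]
  exact fun P _ Q _ h => HeightOneSpectrum.ext h

theorem card_over_le (w : HeightOneSpectrum (𝓞 K)) :
    (IsDedekindDomain.primesOverFinset w.asIdeal (𝓞 M)).card ≤ Module.finrank K M := by
  have hmax : w.asIdeal.IsMaximal := w.isMaximal
  rw [← Ideal.sum_ramification_inertia (𝓞 M) K M (p := w.asIdeal) w.ne_bot,
    Finset.card_eq_sum_ones]
  refine Finset.sum_le_sum (fun P hP => ?_)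
  rw [IsDedekindDomain.mem_primesOverFinset_iff w.ne_bot] at hP
  have h1 : P.IsPrime := hP.1
  have h2 : P.LiesOver w.asIdeal := hP.2
  have h3 := Ideal.IsDedekindDomain.ramificationIdx'_ne_zero_of_liesOver P w.ne_bot
  have h4 := Ideal.inertiaDeg'_ne_zero w.asIdeal P
  exact Nat.one_le_iff_ne_zero.2 (Nat.mul_ne_zero h3 h4)

theorem card_over_eq (w : HeightOneSpectrum (𝓞 K))
    (h : ∀ P : HeightOneSpectrum (𝓞 M), pullPrime (algebraMap K M) P = w →
      Ideal.absNorm P.asIdeal = Ideal.absNorm w.asIdeal ∧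
      ∀ p : ℕ, p.Prime → (p : 𝓞 M) ∈ P.asIdeal →
        P.valuation M (p : M) = WithZero.exp (-1 : ℤ)) :
    (IsDedekindDomain.primesOverFinset w.asIdeal (𝓞 M)).card = Module.finrank K M := by
  have hmax : w.asIdeal.IsMaximal := w.isMaximal
  rw [← Ideal.sum_ramification_inertia (𝓞 M) K M (p := w.asIdeal) w.ne_bot, Finset.card_eq_sum_ones]
  refine Finset.sum_congr rfl (fun P hP => ?_)
  rw [IsDedekindDomain.mem_primesOverFinset_iff w.ne_bot] at hP
  have h1 : P.IsPrime := hP.1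
  have h2 : P.LiesOver w.asIdeal := hP.2
  have h3 := Ideal.IsDedekindDomain.ramificationIdx'_ne_zero_of_liesOver P w.ne_bot
  have h4 := Ideal.inertiaDeg'_ne_zero w.asIdeal P
  have hP0 : P ≠ ⊥ := by
    rintro rfl
    have h5 := h2.over
    rw [Ideal.under_def, Ideal.comap_bot_of_injective _
      (FaithfulSMul.algebraMap_injective (𝓞 K) (𝓞 M))] at h5
    exact w.ne_bot h5
  obtain ⟨h5, h6⟩ := h ⟨P, h1, hP0⟩ (HeightOneSpectrum.ext h2.over.symm)
  have hwp : w.asIdeal.IsPrime := w.isPrime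
  have h7 : Ideal.absNorm P = Ideal.absNorm w.asIdeal ^ Ideal.inertiaDeg' w.asIdeal P :=
    Ideal.absNorm_eq_pow_inertiaDeg'_of_liesOver P w.asIdeal hwp w.ne_bot
  have h8 : Ideal.inertiaDeg' w.asIdeal P = 1 := by
    have h9 : Ideal.absNorm P = Ideal.absNorm w.asIdeal := h5
    rw [h9] at h7
    have h10 := two_le_absNorm w
    have h11 : Ideal.absNorm w.asIdeal ^ 1 = Ideal.absNorm w.asIdeal ^
        Ideal.inertiaDeg' w.asIdeal P := by rw [pow_one]; exact h7
    exact (Nat.pow_right_injective h10 h11).symm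
  have h9 : Ideal.ramificationIdx' w.asIdeal P < 2 := by
    apply Ideal.ramificationIdx'_lt
    intro hle
    obtain ⟨hp1, hp2, -⟩ := resChar_spec w
    have h10 : ((resChar w : ℕ) : 𝓞 M) ∈ P ^ 2 := by
      apply hle
      have := Ideal.mem_map_of_mem (algebraMap (𝓞 K) (𝓞 M)) hp2
      rwa [map_natCast] at this
    have h11 : ((resChar w : ℕ) : 𝓞 M) ∈ P := Ideal.pow_le_self (by norm_num) h10
    have h12 := h6 _ hp1 h11
    have h13 := ((⟨P, h1, hP0⟩ : HeightOneSpectrum (𝓞 M)).intValuation_le_pow_iff_mem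
      ((resChar w : ℕ) : 𝓞 M) 2).2 h10
    rw [← HeightOneSpectrum.valuation_of_algebraMap (K := M)] at h13
    have h14 : (⟨P, h1, hP0⟩ : HeightOneSpectrum (𝓞 M)).valuation M
        (algebraMap (𝓞 M) M ((resChar w : ℕ) : 𝓞 M)) = WithZero.exp (-1 : ℤ) := by
      rw [map_natCast (algebraMap (𝓞 M) M)]
      exact h12
    rw [h14, WithZero.exp_le_exp] at h13
    norm_num at h13
  rw [h8, mul_one]
  omega

/-- the primes of `K` below a ramified prime of `M` -/
theorem finite_bad : {w : HeightOneSpectrum (𝓞 K) | ∃ P : HeightOneSpectrum (𝓞 M),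
    pullPrime (algebraMap K M) P = w ∧ ∃ p : ℕ, p.Prime ∧ (p : 𝓞 M) ∈ P.asIdeal ∧
      P.valuation M (p : M) ≠ WithZero.exp (-1 : ℤ)}.Finite := by
  refine ((finite_ramified M).image (pullPrime (algebraMap K M))).subset ?_
  rintro w ⟨P, hP, hP'⟩
  exact ⟨P, hP', hP⟩

theorem finite_over {S : Set (HeightOneSpectrum (𝓞 K))} (hS : S.Finite) :
    {P : HeightOneSpectrum (𝓞 M) | pullPrime (algebraMap K M) P ∈ S}.Finite := by
  have h1 : {P : HeightOneSpectrum (𝓞 M) | pullPrime (algebraMap K M) P ∈ S} =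
      ⋃ w ∈ S, {P : HeightOneSpectrum (𝓞 M) | pullPrime (algebraMap K M) P = w} := by
    ext P
    simp
  rw [h1]
  refine hS.biUnion fun w _ => ?_
  rw [← Set.encard_ne_top_iff, encard_over]
  exact ENat.natCast_ne_top _

end Over

section Frob

variable {K L : Type*} [Field K] [NumberField K] [Field L] [NumberField L] [Algebra K L]
  [IsGalois K L]

theorem exists_frobenius (Q : HeightOneSpectrum (𝓞 L)) {e : ℕ} {ζ : 𝓞 L} (hζ : ζ ^ e = 1)
    (he : (e : 𝓞 L) ∉ Q.asIdeal) : ∃ σ : L ≃ₐ[K] L,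
      σ (ζ : L) = (ζ : L) ^ Ideal.absNorm (pullPrime (algebraMap K L) Q).asIdeal ∧
      ∀ x y : 𝓞 L, σ (x : L) = (y : L) →
        y - x ^ Ideal.absNorm (pullPrime (algebraMap K L) Q).asIdeal ∈ Q.asIdeal := by
  have hQ : Q.asIdeal.IsPrime := Q.isPrime
  have hfin : Finite (𝓞 L ⧸ Q.asIdeal) := Ideal.finiteQuotientOfFreeOfNeBot _ Q.ne_bot
  obtain ⟨σ, hσ⟩ := IsArithFrobAt.exists_of_isInvariant (𝓞 K) (L ≃ₐ[K] L) Q.asIdeal
  have hN : Nat.card (𝓞 K ⧸ Q.asIdeal.under (𝓞 K)) =
      Ideal.absNorm (pullPrime (algebraMap K L) Q).asIdeal := by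
    rw [Ideal.absNorm_apply, Submodule.cardQuot_apply]
    rfl
  refine ⟨σ, ?_, ?_⟩
  · have h1 := hσ.apply_of_pow_eq_one hζ he
    rw [hN] at h1
    have h2 := congrArg (algebraMap (𝓞 L) L) h1
    rw [map_pow] at h2
    exact h2
  · intro x y hxy
    have h1 := hσ x
    rw [hN] at h1
    have h2 : (MulSemiringAction.toAlgHom (𝓞 K) (𝓞 L) σ) x = y := by
      apply NumberField.RingOfIntegers.ext
      exact hxy
    rwa [h2] at h1

end Frob

end Vale.Agent.P024.H409
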