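import Vale.Agent.P024.H409.Dens2

/-!
P024: density of the primes of degree one whose norm has a power congruent to one modulo `e`.
-/

namespace Vale.Agent.P024.H409

open scoped NumberField ENNReal Topology
open IsDedekindDomain NumberField Filter

theorem pow_apply_prim {L : Type*} [Field L] {K : Type*} [Field K] [Algebra K L]
    (σ : L ≃ₐ[K] L) {ζ : L} {N : ℕ} (h : σ ζ = ζ ^ N) (k : ℕ) : (σ ^ k) ζ = ζ ^ N ^ k := by
  induction k with
  | zero => simp
  | succ k ih =>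
    rw [pow_succ', AlgEquiv.mul_apply, ih, map_pow, h, ← pow_mul, pow_succ']

theorem prim_pow_iff {L : Type*} [Field L] {e : ℕ} (he : 0 < e) {ζ : L} (hζ : IsPrimitiveRoot ζ e)
    (a b : ℕ) : ζ ^ a = ζ ^ b ↔ a ≡ b [MOD e] := by
  have h1 : IsPrimitiveRoot (hζ.isUnit he.ne').unit e :=
    IsPrimitiveRoot.coe_units_iff.1 (by simpa using hζ)
  rw [h1.eq_orderOf, ← pow_eq_pow_iff_modEq, ← Units.val_inj]
  simp

section Tower

variable {K M L : Type*} [Field K] [NumberField K] [Field M] [NumberField M] [Field L]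
  [NumberField L] [Algebra K M] [Algebra M L] [Algebra K L] [IsScalarTower K M L]

theorem pull_pull (Q : HeightOneSpectrum (𝓞 L)) :
    pullPrime (algebraMap K M) (pullPrime (algebraMap M L) Q) = pullPrime (algebraMap K L) Q := by
  apply HeightOneSpectrum.ext
  ext x
  rw [mem_pullPrime, mem_pullPrime, mem_pullPrime]
  have h1 : RingOfIntegers.mapRingHom (algebraMap M L) (RingOfIntegers.mapRingHom
      (algebraMap K M) x) = RingOfIntegers.mapRingHom (algebraMap K L) x := by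
    apply NumberField.RingOfIntegers.ext
    exact (IsScalarTower.algebraMap_apply K M L (x : K)).symm
  rw [h1]

theorem card_le_of_pow_eq {k : Type*} [Field k] [Finite k] {N : ℕ} (hN : 1 < N)
    (h : ∀ t : k, t ^ N = t) : Nat.card k ≤ N := by
  classical
  have := Fintype.ofFinite k
  have hp0 : (Polynomial.X ^ N - Polynomial.X : Polynomial k) ≠ 0 :=
    FiniteField.X_pow_card_sub_X_ne_zero k hN
  have hdeg : (Polynomial.X ^ N - Polynomial.X : Polynomial k).natDegree = N :=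
    FiniteField.X_pow_card_sub_X_natDegree_eq k hN
  have h1 := Polynomial.card_le_degree_of_subset_roots (p := (Polynomial.X ^ N - Polynomial.X :
    Polynomial k)) (Z := Finset.univ) (by
      intro t _
      rw [Polynomial.mem_roots hp0]
      simp [h t])
  rw [hdeg] at h1
  rwa [Nat.card_eq_fintype_card]

theorem absNorm_eq_of_pow [IsGalois K L] {e d : ℕ} (he : 0 < e) {ζ : 𝓞 L} (hζ : IsPrimitiveRoot ζ e)
    (hgen : ∀ σ : L ≃ₐ[K] L, σ (ζ : L) = (ζ : L) → σ = 1)
    (hM : ∀ σ : L ≃ₐ[K] L, σ ^ d = 1 → ∀ y : M, σ (algebraMap M L y) = algebraMap M L y)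
    (w : HeightOneSpectrum (𝓞 K)) (hew : (e : 𝓞 K) ∉ w.asIdeal)
    (hw : ((Ideal.absNorm w.asIdeal : ℕ) : ZMod e) ^ d = 1)
    (P : HeightOneSpectrum (𝓞 M)) (hP : pullPrime (algebraMap K M) P = w) :
    Ideal.absNorm P.asIdeal = Ideal.absNorm w.asIdeal := by
  obtain ⟨Q, hQ⟩ := exists_pull_eq (algebraMap M L) P
  have hQw : pullPrime (algebraMap K L) Q = w := by rw [← pull_pull (M := M), hQ, hP]
  have heQ : (e : 𝓞 L) ∉ Q.asIdeal := by
    intro h
    apply hew
    rw [← hQw, mem_pullPrime, map_natCast]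
    exact h
  obtain ⟨σ, hσ1, hσ2⟩ := exists_frobenius (K := K) Q hζ.pow_eq_one heQ
  rw [hQw] at hσ1 hσ2
  set N := Ideal.absNorm w.asIdeal with hN
  have hN2 : 2 ≤ N := two_le_absNorm w
  have hζL : IsPrimitiveRoot (ζ : L) e :=
    hζ.map_of_injective (FaithfulSMul.algebraMap_injective (𝓞 L) L)
  have hσd : σ ^ d = 1 := by
    apply hgen
    rw [pow_apply_prim σ hσ1]
    have h1 : N ^ d ≡ 1 [MOD e] := by
      rw [← ZMod.natCast_eq_natCast_iff]
      push_cast
      exact hw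
    have h2 : (ζ : L) ^ (N ^ d) = (ζ : L) ^ 1 := (prim_pow_iff he hζL _ _).2 h1
    rw [h2, pow_one]
  have hfin : Finite (𝓞 M ⧸ P.asIdeal) := Ideal.finiteQuotientOfFreeOfNeBot _ P.ne_bot
  have hmax : P.asIdeal.IsMaximal := P.isMaximal
  let _ : Field (𝓞 M ⧸ P.asIdeal) := Ideal.Quotient.field _
  have hle : Ideal.absNorm P.asIdeal ≤ N := by
    rw [Ideal.absNorm_apply, Submodule.cardQuot_apply]
    refine card_le_of_pow_eq (by omega) ?_
    intro t
    obtain ⟨x, rfl⟩ := Ideal.Quotient.mk_surjective t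
    rw [← map_pow, Ideal.Quotient.eq]
    have h1 := hσ2 (RingOfIntegers.mapRingHom (algebraMap M L) x)
      (RingOfIntegers.mapRingHom (algebraMap M L) x) (hM σ hσd (x : M))
    have h2 : RingOfIntegers.mapRingHom (algebraMap M L) (x ^ N - x) ∈ Q.asIdeal := by
      rw [map_sub, map_pow, ← neg_sub]
      exact Q.asIdeal.neg_mem h1
    rw [← mem_pullPrime, hQ] at h2
    exact h2
  have hlo := liesOver_of_pull hP
  have hwp : w.asIdeal.IsPrime := w.isPrime
  have hwm : w.asIdeal.IsMaximal := w.isMaximal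
  have hPp : P.asIdeal.IsPrime := P.isPrime
  have h7 : Ideal.absNorm P.asIdeal = Ideal.absNorm w.asIdeal ^
      Ideal.inertiaDeg' w.asIdeal P.asIdeal :=
    Ideal.absNorm_eq_pow_inertiaDeg'_of_liesOver P.asIdeal w.asIdeal hwp w.ne_bot
  have h4 := Ideal.inertiaDeg'_ne_zero w.asIdeal P.asIdeal
  refine le_antisymm hle ?_
  rw [h7]
  exact Nat.le_self_pow h4 _

theorem pow_eq_one_of_gal [IsGalois M L] {e d : ℕ} (he : 0 < e) {ζ : 𝓞 L} (hζ : IsPrimitiveRoot ζ e)
    (hM : ∀ σ : L ≃ₐ[M] L, σ ^ d = 1) (P : HeightOneSpectrum (𝓞 M))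
    (heP : (e : 𝓞 M) ∉ P.asIdeal) : ((Ideal.absNorm P.asIdeal : ℕ) : ZMod e) ^ d = 1 := by
  obtain ⟨Q, hQ⟩ := exists_pull_eq (algebraMap M L) P
  have heQ : (e : 𝓞 L) ∉ Q.asIdeal := by
    intro h
    apply heP
    rw [← hQ, mem_pullPrime, map_natCast]
    exact h
  obtain ⟨σ, hσ1, -⟩ := exists_frobenius (K := M) Q hζ.pow_eq_one heQ
  rw [hQ] at hσ1
  have hζL : IsPrimitiveRoot (ζ : L) e :=
    hζ.map_of_injective (FaithfulSMul.algebraMap_injective (𝓞 L) L)
  have h1 := pow_apply_prim σ hσ1 d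
  rw [hM σ, AlgEquiv.one_apply] at h1
  have h2 : (ζ : L) ^ 1 = (ζ : L) ^ (Ideal.absNorm P.asIdeal ^ d) := by rw [pow_one]; exact h1
  rw [prim_pow_iff he hζL, ← ZMod.natCast_eq_natCast_iff] at h2
  push_cast at h2
  exact h2.symm

theorem finite_dvd {e : ℕ} (he : e ≠ 0) :
    {w : HeightOneSpectrum (𝓞 K) | (e : 𝓞 K) ∈ w.asIdeal}.Finite := by
  have h1 : Ideal.span {(e : 𝓞 K)} ≠ 0 := by
    rw [Ne, Ideal.zero_eq_bot, Ideal.span_singleton_eq_bot]
    exact_mod_cast he
  refine (Ideal.finite_factors h1).subset ?_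
  intro w hw
  rw [Set.mem_ofPred_eq, Ideal.dvd_span_singleton]
  exact hw

theorem hasDens_pow [IsGalois K L] [IsGalois M L] {e d : ℕ} (he : e ≠ 0) {ζ : 𝓞 L}
    (hζ : IsPrimitiveRoot ζ e)
    (hgen : ∀ σ : L ≃ₐ[K] L, σ (ζ : L) = (ζ : L) → σ = 1)
    (hM : ∀ σ : L ≃ₐ[K] L, σ ^ d = 1 → ∀ y : M, σ (algebraMap M L y) = algebraMap M L y)
    (hM2 : ∀ σ : L ≃ₐ[M] L, σ ^ d = 1) :
    HasDens K {w | (Ideal.absNorm w.asIdeal).Prime ∧
      ((Ideal.absNorm w.asIdeal : ℕ) : ZMod e) ^ d = 1} (1 / (Module.finrank K M : ℝ)) := by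
  set S : Set (HeightOneSpectrum (𝓞 K)) := {w | ∃ P : HeightOneSpectrum (𝓞 M),
    pullPrime (algebraMap K M) P = w ∧ ∃ p : ℕ, p.Prime ∧ (p : 𝓞 M) ∈ P.asIdeal ∧
      P.valuation M (p : M) ≠ WithZero.exp (-1 : ℤ)} ∪ {w | (e : 𝓞 K) ∈ w.asIdeal} with hS
  have hSfin : S.Finite := finite_bad.union (finite_dvd he)
  set A : Set (HeightOneSpectrum (𝓞 M)) := {P | (Ideal.absNorm P.asIdeal).Prime} \
    {P | pullPrime (algebraMap K M) P ∈ S} with hA
  set B : Set (HeightOneSpectrum (𝓞 K)) := {w | (Ideal.absNorm w.asIdeal).Prime ∧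
      ((Ideal.absNorm w.asIdeal : ℕ) : ZMod e) ^ d = 1} with hB
  have hdA : HasDens M A 1 := (hasDens_one M).diff_finite (finite_over hSfin)
  have hAB : ∀ P : A, pullPrime (algebraMap K M) P.1 ∈ B \ S := by
    rintro ⟨P, hP, hPS⟩
    have h1 : Ideal.absNorm (pullPrime (algebraMap K M) P).asIdeal = Ideal.absNorm P.asIdeal :=
      absNorm_pull _ P hP
    refine ⟨⟨?_, ?_⟩, hPS⟩
    · show (Ideal.absNorm (pullPrime (algebraMap K M) P).asIdeal).Prime
      rw [h1]
      exact hP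
    · show ((Ideal.absNorm (pullPrime (algebraMap K M) P).asIdeal : ℕ) : ZMod e) ^ d = 1
      rw [h1]
      refine pow_eq_one_of_gal (Nat.pos_of_ne_zero he) hζ hM2 P ?_
      intro h
      apply hPS
      right
      show (e : 𝓞 K) ∈ (pullPrime (algebraMap K M) P).asIdeal
      rw [mem_pullPrime, map_natCast]
      exact h
  let g : A → ↥(B \ S) := fun P => ⟨pullPrime (algebraMap K M) P.1, hAB P⟩
  have hkey := sg_fiber_eq (M := M) (K := K) (A := A) (B := B \ S) (m := Module.finrank K M) g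
    (by
      rintro ⟨P, hP, hPS⟩
      exact (absNorm_pull _ P hP).symm)
    (by
      rintro ⟨w, ⟨hw1, hw2⟩, hwS⟩
      have hew : (e : 𝓞 K) ∉ w.asIdeal := fun h => hwS (Or.inr h)
      have hnorm : ∀ P : HeightOneSpectrum (𝓞 M), pullPrime (algebraMap K M) P = w →
          Ideal.absNorm P.asIdeal = Ideal.absNorm w.asIdeal := fun P hP =>
        absNorm_eq_of_pow (Nat.pos_of_ne_zero he) hζ hgen hM w hew hw2 P hP
      have h1 := card_over_eq (M := M) w (by
        intro P hP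
        refine ⟨hnorm P hP, ?_⟩
        intro p hp hpP
        by_contra hne
        exact hwS (Or.inl ⟨P, hP, p, hp, hpP, hne⟩))
      rw [← h1, ← encard_over (M := M) w, Set.encard]
      refine ENat.card_congr ?_
      refine ⟨fun P => ⟨P.1.1, ?_⟩, fun P => ⟨⟨P.1, ?_, ?_⟩, ?_⟩, ?_, ?_⟩
      · have h2 : g P.1 = ⟨w, ⟨hw1, hw2⟩, hwS⟩ := P.2
        exact congrArg Subtype.val h2
      · have h2 : pullPrime (algebraMap K M) P.1 = w := P.2
        show (Ideal.absNorm P.1.asIdeal).Prime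
        rw [hnorm _ h2]
        exact hw1
      · have h2 : pullPrime (algebraMap K M) P.1 = w := P.2
        show ¬ (pullPrime (algebraMap K M) P.1 ∈ S)
        rw [h2]
        exact hwS
      · exact Subtype.ext P.2
      · intro P
        rfl
      · intro P
        rfl)
  have hm0 : Module.finrank K M ≠ 0 := (Module.finrank_pos (R := K) (M := M)).ne'
  have h2 := hdA.of_fiber hm0 hkey
  exact h2.congr S hSfin (by ext w; simp)

end Tower

end Vale.Agent.P024.H409
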