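import Vale.Agent.P024.H409.Dens3
import Mathlib.NumberTheory.Cyclotomic.Gal
import Mathlib.NumberTheory.NumberField.Cyclotomic.Basic
import Mathlib.RingTheory.Polynomial.Eisenstein.IsIntegral

/-!
P024: density of the primes of degree one whose norm generates the group of units modulo `e`.
-/

namespace Vale.Agent.P024.H409

open scoped NumberField ENNReal Topology
open IsDedekindDomain NumberField Filter Polynomial

section Cyc

theorem hasDens_pow_cyc (K : Type*) [Field K] [NumberField K] (e : ℕ) [NeZero e]
    [IsCyclic (ZMod e)ˣ] (hirr : Irreducible (cyclotomic e K)) (d : ℕ) (hd : d ∣ e.totient) :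
    HasDens K {w | (Ideal.absNorm w.asIdeal).Prime ∧
      ((Ideal.absNorm w.asIdeal : ℕ) : ZMod e) ^ d = 1} ((d : ℝ) / (e.totient : ℕ)) := by
  classical
  let L := CyclotomicField e K
  have hcyc : IsCyclotomicExtension {e} K L := CyclotomicField.isCyclotomicExtension e K
  have hfd : FiniteDimensional K L := IsCyclotomicExtension.finiteDimensional {e} K L
  have hgal : IsGalois K L := IsCyclotomicExtension.isGalois {e} K L
  have hnf : NumberField L := NumberField.of_module_finite K L
  let φ : (L ≃ₐ[K] L) ≃* (ZMod e)ˣ := IsCyclotomicExtension.autEquivPow L hirr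
  let R : Subgroup (ZMod e)ˣ := (powMonoidHom d : (ZMod e)ˣ →* (ZMod e)ˣ).ker
  let H : Subgroup (L ≃ₐ[K] L) := R.comap φ.toMonoidHom
  have hmem : ∀ σ : L ≃ₐ[K] L, σ ∈ H ↔ σ ^ d = 1 := by
    intro σ
    show φ σ ∈ R ↔ _
    rw [MonoidHom.mem_ker, powMonoidHom_apply, ← map_pow]
    exact map_eq_one_iff φ φ.injective
  have hcard : Nat.card H = d := by
    have h1 : Nat.card H = Nat.card R := by
      refine Nat.card_congr ?_
      refine ⟨fun x => ⟨φ x.1, x.2⟩, fun y => ⟨φ.symm y.1, ?_⟩, ?_, ?_⟩
      · show φ (φ.symm y.1) ∈ R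
        rw [MulEquiv.apply_symm_apply]
        exact y.2
      · intro x
        apply Subtype.ext
        exact φ.symm_apply_apply x.1
      · intro y
        apply Subtype.ext
        exact φ.apply_symm_apply y.1
    rw [h1, IsCyclic.card_powMonoidHom_ker, Nat.card_eq_fintype_card, ZMod.card_units_eq_totient]
    exact Nat.gcd_eq_right hd
  let M : IntermediateField K L := IntermediateField.fixedField H
  have hnfM : NumberField M := NumberField.of_module_finite K M
  have hfix : M.fixingSubgroup = H := IntermediateField.fixingSubgroup_fixedField H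
  have hLM : Module.finrank M L = d := by
    rw [← hcard]
    exact IntermediateField.finrank_fixedField_eq_card H
  have hLK : Module.finrank K L = e.totient := IsCyclotomicExtension.finrank (n := e) L hirr
  have hmul : Module.finrank K M * d = e.totient := by
    rw [← hLM, ← hLK]
    exact Module.finrank_mul_finrank K M L
  have hζ := IsCyclotomicExtension.zeta_spec e K L
  have hM : ∀ σ : L ≃ₐ[K] L, σ ^ d = 1 → ∀ y : M, σ (algebraMap M L y) = algebraMap M L y := by
    intro σ hσ y
    exact (IntermediateField.mem_fixedField_iff H (y : L)).1 y.2 σ ((hmem σ).2 hσ)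
  have hM2 : ∀ σ : L ≃ₐ[M] L, σ ^ d = 1 := by
    intro σ
    have h1 : ((IntermediateField.fixingSubgroupEquiv M).symm σ).1 ∈ H := by
      rw [← hfix]
      exact ((IntermediateField.fixingSubgroupEquiv M).symm σ).2
    have h2 : ((IntermediateField.fixingSubgroupEquiv M).symm σ) ^ d = 1 := by
      apply Subtype.ext
      exact (hmem _).1 h1
    rw [← map_pow] at h2
    exact (map_eq_one_iff _ (IntermediateField.fixingSubgroupEquiv M).symm.injective).1 h2
  have hgen : ∀ σ : L ≃ₐ[K] L, σ ((hζ.toInteger : 𝓞 L) : L) = ((hζ.toInteger : 𝓞 L) : L) →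
      σ = 1 := by
    intro σ hσ
    have h1 : (σ : L →ₐ[K] L) = (AlgHom.id K L) := by
      apply (hζ.powerBasis K).algHom_ext
      rw [IsPrimitiveRoot.powerBasis_gen]
      exact hσ
    ext x
    exact DFunLike.congr_fun h1 x
  have h1 := hasDens_pow (K := K) (M := M) (L := L) (NeZero.ne e) (ζ := hζ.toInteger)
    hζ.toInteger_isPrimitiveRoot hgen hM hM2
  convert h1 using 1
  have hd0 : (d : ℝ) ≠ 0 := by
    intro h0
    have h2 : d = 0 := by exact_mod_cast h0
    rw [h2, mul_zero] at hmul
    exact (Nat.totient_pos.2 (NeZero.pos e)).ne hmul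
  rw [← hmul]
  push_cast
  field_simp

/-- The primes of degree one whose norm generates the group of units modulo `e`. -/
theorem hasDens_gen (K : Type*) [Field K] [NumberField K] (e : ℕ) [NeZero e]
    [IsCyclic (ZMod e)ˣ] (hirr : Irreducible (cyclotomic e K)) :
    HasDens K {w | (Ideal.absNorm w.asIdeal).Prime ∧
      orderOf ((Ideal.absNorm w.asIdeal : ℕ) : ZMod e) = e.totient}
      ((e.totient.totient : ℝ) / (e.totient : ℕ)) :=
  hasDens_order {w | (Ideal.absNorm w.asIdeal).Prime}
    (fun w => ((Ideal.absNorm w.asIdeal : ℕ) : ZMod e))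
    (fun d hd => hasDens_pow_cyc K e hirr d hd) (Nat.totient_pos.2 (NeZero.pos e)).ne' _ dvd_rfl

end Cyc

section Irr

theorem irreducible_cyclotomic (N : Type*) [Field N] [NumberField N] {l : ℕ} (hl : l.Prime)
    (P : HeightOneSpectrum (𝓞 N)) (hP : (l : 𝓞 N) ∈ P.asIdeal)
    (hv : P.valuation N (l : N) = WithZero.exp (-1 : ℤ)) : Irreducible (cyclotomic l N) := by
  classical
  have hlf : Fact l.Prime := ⟨hl⟩
  have hE := cyclotomic_comp_X_add_one_isEisensteinAt l
  set g : ℤ[X] := (cyclotomic l ℤ).comp (X + 1) with hg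
  set f : (𝓞 N)[X] := (cyclotomic l (𝓞 N)).comp (X + 1) with hf
  have hfg : f = g.map (Int.castRingHom (𝓞 N)) := by
    rw [hf, hg, Polynomial.map_comp, map_cyclotomic]
    simp
  have hX1 : (X + 1 : ℤ[X]).natDegree = 1 := natDegree_X_add_C 1
  have hgm : g.Monic := (cyclotomic.monic l ℤ).comp (monic_X_add_C (1 : ℤ)) (by
    show (X + 1 : ℤ[X]).natDegree ≠ 0
    rw [hX1]
    norm_num)
  have hfm : f.Monic := by
    rw [hfg]
    exact hgm.map _
  have hdeg : f.natDegree = g.natDegree := by
    rw [hfg]
    exact hgm.natDegree_map _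
  have hgdeg : g.natDegree = l.totient := by
    rw [hg, natDegree_comp, natDegree_cyclotomic]
    rw [hX1, mul_one]
  have hpos : 0 < f.natDegree := by
    rw [hdeg, hgdeg]
    exact Nat.totient_pos.2 hl.pos
  have hcoeff0 : f.coeff 0 = (l : 𝓞 N) := by
    rw [coeff_zero_eq_eval_zero, hf, eval_comp]
    simp [eval_one_cyclotomic_prime]
  have hEis : f.IsEisensteinAt P.asIdeal := by
    refine ⟨?_, ?_, ?_⟩
    · rw [hfm.leadingCoeff]
      exact fun h => P.isPrime.ne_top ((Ideal.eq_top_iff_one _).2 h)
    · intro n hn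
      rw [hdeg] at hn
      have h1 := hE.mem hn
      rw [hfg, coeff_map]
      rw [Ideal.submodule_span_eq, Ideal.mem_span_singleton] at h1
      obtain ⟨c, hc⟩ := h1
      rw [hc, map_mul]
      refine Ideal.mul_mem_right _ _ ?_
      simpa using hP
    · rw [hcoeff0]
      intro h
      have h1 := (P.intValuation_le_pow_iff_mem (l : 𝓞 N) 2).2 h
      rw [← HeightOneSpectrum.valuation_of_algebraMap (K := N)] at h1
      have h14 : P.valuation N (algebraMap (𝓞 N) N (l : 𝓞 N)) = WithZero.exp (-1 : ℤ) := by
        rw [map_natCast (algebraMap (𝓞 N) N)]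
        exact hv
      rw [h14, WithZero.exp_le_exp] at h1
      norm_num at h1
  have hirr : Irreducible f := hEis.irreducible P.isPrime hfm.isPrimitive hpos
  have hirr2 : Irreducible (cyclotomic l (𝓞 N)) := by
    have h1 : f = Polynomial.taylorEquiv (1 : 𝓞 N) (cyclotomic l (𝓞 N)) := by
      rw [hf]
      show _ = Polynomial.taylor (1 : 𝓞 N) (cyclotomic l (𝓞 N))
      rw [Polynomial.taylor_apply, map_one]
    rw [h1] at hirr
    exact (MulEquiv.irreducible_iff (Polynomial.taylorEquiv (1 : 𝓞 N))).1 hirr
  have h2 := ((cyclotomic.monic l (𝓞 N)).irreducible_iff_irreducible_map_fraction_map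
    (K := N)).1 hirr2
  rwa [map_cyclotomic] at h2

end Irr

section Deg

theorem finrank_eq_totient_of_irreducible {K L : Type*} [Field K] [Field L] [Algebra K L]
    [FiniteDimensional K L] {l : ℕ} (hl : 0 < l) (hirr : Irreducible (cyclotomic l K))
    {ζ : L} (hζ : IsPrimitiveRoot ζ l) : l.totient ≤ Module.finrank K L := by
  have h0 : aeval ζ (cyclotomic l K) = 0 := by
    rw [aeval_def, eval₂_eq_eval_map, map_cyclotomic]
    exact hζ.isRoot_cyclotomic hl
  have h1 := minpoly.eq_of_irreducible_of_monic hirr h0 (cyclotomic.monic l K)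
  have h2 : (minpoly K ζ).natDegree ≤ Module.finrank K L := minpoly.natDegree_le ζ
  rwa [← h1, natDegree_cyclotomic] at h2

theorem finrank_le_totient (K : Type*) [Field K] [CharZero K] (e : ℕ) [NeZero e] :
    Module.finrank K (CyclotomicField e K) ≤ e.totient ∧
      (Module.finrank K (CyclotomicField e K) = e.totient → Irreducible (cyclotomic e K)) := by
  let L := CyclotomicField e K
  have hcyc : IsCyclotomicExtension {e} K L := CyclotomicField.isCyclotomicExtension e K
  have hζ := IsCyclotomicExtension.zeta_spec e K L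
  have h0 : aeval (IsCyclotomicExtension.zeta e K L) (cyclotomic e K) = 0 := by
    rw [aeval_def, eval₂_eq_eval_map, map_cyclotomic]
    exact hζ.isRoot_cyclotomic (NeZero.pos e)
  have h1 := minpoly.dvd K _ h0
  have h2 : Module.finrank K L = (minpoly K (IsCyclotomicExtension.zeta e K L)).natDegree := by
    rw [(hζ.powerBasis K).finrank, ← (hζ.powerBasis K).natDegree_minpoly,
      IsPrimitiveRoot.powerBasis_gen]
  have h3 := natDegree_le_of_dvd h1 (cyclotomic_ne_zero e K)
  rw [natDegree_cyclotomic] at h3
  have hint : IsIntegral K (IsCyclotomicExtension.zeta e K L) :=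
    hζ.isIntegral (NeZero.pos e) |>.tower_top
  refine ⟨by rw [h2]; exact h3, fun h => ?_⟩
  have h4 : minpoly K (IsCyclotomicExtension.zeta e K L) = cyclotomic e K := by
    refine (eq_of_monic_of_dvd_of_natDegree_le (minpoly.monic hint) (cyclotomic.monic e K) h1
      ?_).symm
    rw [natDegree_cyclotomic, ← h2, h]
  rw [← h4]
  exact minpoly.irreducible hint

/-- For all primes `l` outside a finite set the cyclotomic polynomial of index `e` is irreducible
over the field obtained by adjoining the `l`-th roots of unity. -/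
theorem exists_irreducible (Z : Type*) [Field Z] [NumberField Z] (e : ℕ) [NeZero e]
    (hcop : (Module.finrank ℚ Z).Coprime e.totient) : ∃ T : Set ℕ, T.Finite ∧
      ∀ l : ℕ, l.Prime → l ∉ T → Irreducible (cyclotomic e (CyclotomicField l Z)) := by
  let N := CyclotomicField e Z
  have hcycN : IsCyclotomicExtension {e} Z N := CyclotomicField.isCyclotomicExtension e Z
  have hfdN : FiniteDimensional Z N := IsCyclotomicExtension.finiteDimensional {e} Z N
  have hnfN : NumberField N := NumberField.of_module_finite Z N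
  have hζN := IsCyclotomicExtension.zeta_spec e Z N
  -- the degree of `N` over `Z`
  have hNZ : e.totient ≤ Module.finrank Z N := by
    have h1 : e.totient ∣ Module.finrank ℚ N := by
      have h2 : (minpoly ℚ (IsCyclotomicExtension.zeta e Z N)).natDegree ∣ Module.finrank ℚ N :=
        minpoly.degree_dvd (Algebra.IsIntegral.isIntegral _)
      rwa [← cyclotomic_eq_minpoly_rat hζN (NeZero.pos e), natDegree_cyclotomic] at h2
    rw [← Module.finrank_mul_finrank ℚ Z N] at h1
    exact Nat.le_of_dvd Module.finrank_pos (hcop.symm.dvd_of_dvd_mul_left h1)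
  refine ⟨resChar '' {w : HeightOneSpectrum (𝓞 N) | ∃ p : ℕ, p.Prime ∧ (p : 𝓞 N) ∈ w.asIdeal ∧
      w.valuation N (p : N) ≠ WithZero.exp (-1 : ℤ)}, (finite_ramified N).image _, ?_⟩
  intro l hl hlT
  have hl0 : NeZero l := ⟨hl.ne_zero⟩
  -- a prime above `l`
  have hNirr : Irreducible (cyclotomic l N) := by
    obtain ⟨P, hP⟩ : ∃ P : HeightOneSpectrum (𝓞 N), (l : 𝓞 N) ∈ P.asIdeal := by
      have hnu : ¬ IsUnit (l : 𝓞 N) := by
        intro hu
        have h1 : Ideal.absNorm (Ideal.span {(l : 𝓞 N)}) = 1 := by
          rw [Ideal.span_singleton_eq_top.2 hu, Ideal.absNorm_top]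
        rw [Ideal.absNorm_span_natCast] at h1
        have h2 : Module.finrank ℤ (𝓞 N) ≠ 0 := by
          rw [RingOfIntegers.rank]
          exact (Module.finrank_pos (R := ℚ) (M := N)).ne'
        have h3 := (Nat.pow_eq_one.1 h1).resolve_right h2
        exact hl.one_lt.ne' h3
      obtain ⟨I, hI, hle⟩ := exists_max_ideal_of_mem_nonunits (show (l : 𝓞 N) ∈ nonunits (𝓞 N) from hnu)
      refine ⟨⟨I, hI.isPrime, ?_⟩, hle⟩
      rintro rfl
      exact hl.ne_zero (by exact_mod_cast (Ideal.mem_bot.1 hle))
    refine irreducible_cyclotomic N hl P hP ?_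
    by_contra hne
    apply hlT
    refine ⟨P, ⟨l, hl, hP, hne⟩, ?_⟩
    exact (prime_mem_unique P (resChar_spec P).1 hl (resChar_spec P).2.1 hP)
  let K := CyclotomicField l Z
  have hcycK : IsCyclotomicExtension {l} Z K := CyclotomicField.isCyclotomicExtension l Z
  have hfdK : FiniteDimensional Z K := IsCyclotomicExtension.finiteDimensional {l} Z K
  have hnfK : NumberField K := NumberField.of_module_finite Z K
  let L := CyclotomicField e K
  have hcycL : IsCyclotomicExtension {e} K L := CyclotomicField.isCyclotomicExtension e K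
  have hfdL : FiniteDimensional K L := IsCyclotomicExtension.finiteDimensional {e} K L
  have hnfL : NumberField L := NumberField.of_module_finite K L
  have hζl : IsPrimitiveRoot (algebraMap K L (IsCyclotomicExtension.zeta l Z K)) l :=
    (IsCyclotomicExtension.zeta_spec l Z K).map_of_injective (algebraMap K L).injective
  have htow : IsScalarTower Z K L := inferInstance
  have hfdZL : FiniteDimensional Z L := FiniteDimensional.trans Z K L
  -- embedding of `N` into `L`
  have hspl : ((cyclotomic e Z).map (algebraMap Z L)).Splits := by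
    have h1 := IsCyclotomicExtension.splits_cyclotomic (n := e) (S := {e}) K L rfl
    rwa [map_cyclotomic] at h1 ⊢
  let ψ : N →ₐ[Z] L := SplittingField.lift (cyclotomic e Z) hspl
  let _ : Algebra N L := ψ.toRingHom.toAlgebra
  have htow2 : IsScalarTower Z N L := IsScalarTower.of_algebraMap_eq (fun x => (ψ.commutes x).symm)
  have hfdNL : FiniteDimensional N L := FiniteDimensional.right Z N L
  have h1 : l.totient ≤ Module.finrank N L := finrank_eq_totient_of_irreducible hl.pos hNirr hζl
  have h2 : Module.finrank Z K ≤ l.totient := (finrank_le_totient Z l).1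
  have h3 : Module.finrank K L ≤ e.totient := (finrank_le_totient K e).1
  have h4 := Module.finrank_mul_finrank Z N L
  have h5 := Module.finrank_mul_finrank Z K L
  refine (finrank_le_totient K e).2 (le_antisymm h3 ?_)
  have h6 : e.totient * l.totient ≤ Module.finrank K L * l.totient := by
    calc e.totient * l.totient ≤ Module.finrank Z N * Module.finrank N L := Nat.mul_le_mul hNZ h1
      _ = Module.finrank Z K * Module.finrank K L := by rw [h4, h5]
      _ ≤ l.totient * Module.finrank K L := Nat.mul_le_mul_right _ h2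
      _ = _ := mul_comm _ _
  exact Nat.le_of_mul_le_mul_right h6 (Nat.totient_pos.2 hl.pos)

end Deg

end Vale.Agent.P024.H409
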