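import Vale.Agent.P024.H409.Dens
import Vale.Agent.P024.H46.Multi
import Vale.Agent.P024.H157.Clo3D

/-!
P024: Uchida's conjecture for the totally real abelian fields of prime exponent.
-/

namespace Vale.Agent.P024.H409

open scoped NumberField ENNReal Topology
open NumberField IsDedekindDomain Filter Vale.Agent.P024

theorem tendsto_finite {T : Set ℕ} (hT : T.Finite) :
    Tendsto (fun s : ℝ => (∑' p : {p : ℕ | p.Prime ∧ p ∈ T}, ((p : ℕ) : ℝ) ^ (-s)) /
      Real.log (1 / (s - 1))) (𝓝[>] 1) (𝓝 0) := by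
  induction T, hT using Set.Finite.induction_on with
  | empty => exact tendsto_empty
  | insert _ _ ih => exact tendsto_insert _ _ ih

/-- Uchida's conjecture for the totally real fields `F₁` which are Galois over `ℚ` with
commutative Galois group of prime exponent. -/
theorem uchida_prime_exponent {F₁ E₁ F₂ E₂ : Type*} [Field F₁] [NumberField F₁] [Field E₁]
    [Algebra F₁ E₁] [IsGalois F₁ E₁] [Field F₂] [NumberField F₂] [Field E₂] [Algebra F₂ E₂]
    [IsGalois F₂ E₂] [IsTotallyReal F₁] [IsGalois ℚ F₁]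
    (hab : ∀ g h : F₁ ≃ₐ[ℚ] F₁, g * h = h * g) (l : ℕ) (hl : l.Prime)
    (hexp : ∀ g : F₁ ≃ₐ[ℚ] F₁, g ^ l = 1)
    (hE₁ : SolvablyClosed E₁) (hE₂ : SolvablyClosed E₂)
    (α : (E₁ ≃ₐ[F₁] E₁) →* (E₂ ≃ₐ[F₂] E₂)) (hα : Continuous α) (hopen : IsOpen (Set.range α)) :
    ∃! j : E₂ →+* E₁, ∀ (g : E₁ ≃ₐ[F₁] E₁) (x : E₂), g (j x) = j ((α g) x) := by
  obtain ⟨T, δ, hT, hδ, hd⟩ := densA_prime F₁ l hl hexp
  refine TR.induced_of_noSplit_dens hE₁ hE₂ α hα hopen F₁ (RingHom.id F₁)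
    {r : ℕ | orderOf (r : ZMod l) = l - 1} T (tendsto_finite hT) hδ hd ?_
  intro p hp hp2 hpA
  exact H46.noSplit_of_clos F₁ p hp2 fun v hv =>
    H157.clos_prime F₁ hab l hl hexp p hp.out hp2 hpA v hv

end Vale.Agent.P024.H409
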