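import Vale.Agent.P024.H409.Lat
import Vale.Agent.P024.H409.Alg
import Vale.Agent.P024.M3.Spec

/-!
# The local norm index (PropD)
-/

set_option linter.unusedSectionVars false

namespace Vale.Agent.P024.H409

open NumberField IsDedekindDomain M3

/-- data for the approximation -/
structure Dat (F : Type*) {L : Type*} [Field F] [NumberField F] [Field L] [NumberField L]
    [Algebra F L] [IsGalois F L] (p : ℕ) (β : L) (c e : ℕ) : Prop where
  hp : p.Prime
  hβ : β ∈ Rs L p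
  ht : tr F β ≠ 0
  hc : ∀ x ∈ Rs L p, (p : L) ^ c * x ∈ ML (F := F) p β
  he : ∀ r ∈ Rs L p, (∃ f : F, algebraMap F L f = r) →
    ∃ m ∈ ML (F := F) p β, tr F m = (p : L) ^ e * r

section

variable {F L : Type*} [Field F] [NumberField F] [Field L] [NumberField L] [Algebra F L]
  [IsGalois F L] {p : ℕ} {β : L} {c e : ℕ}

variable (F L) in
/-- a normal basis gives the data -/
theorem exists_dat (hp : p.Prime) : ∃ (β : L) (c e : ℕ), Dat F p β c e := by
  classical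
  let b := IsGalois.normalBasis F L
  obtain ⟨s, hs⟩ := exists_pow_mul_mem (L := L) hp (b 1)
  have hp0 : (p : L) ≠ 0 := by exact_mod_cast hp.ne_zero
  have hpF : (p : F) ≠ 0 := by exact_mod_cast hp.ne_zero
  have hspan : ∀ x : L, ∃ a : (L ≃ₐ[F] L) → F,
      x = ∑ g, algebraMap F L (a g) * g ((p : L) ^ s * b 1) := by
    intro x
    refine ⟨fun g => b.repr x g * ((p : F) ^ s)⁻¹, ?_⟩
    conv_lhs => rw [← b.sum_repr x]
    refine Finset.sum_congr rfl fun g _ => ?_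
    rw [map_mul g, map_pow g, map_natCast g, ← IsGalois.normalBasis_apply, map_mul, map_inv₀,
      map_pow, map_natCast, Algebra.smul_def]
    field_simp
    rfl
  have ht : tr F ((p : L) ^ s * b 1) ≠ 0 := by
    intro h0
    have h1 : ∀ x : L, tr F x = 0 := by
      intro x
      obtain ⟨a, rfl⟩ := hspan x
      have h2 : tr F (∑ g, algebraMap F L (a g) * g ((p : L) ^ s * b 1)) =
          ∑ g, tr F (algebraMap F L (a g) * g ((p : L) ^ s * b 1)) := by
        unfold tr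
        rw [Finset.sum_comm]
        refine Finset.sum_congr rfl fun g _ => ?_
        rw [map_sum]
      rw [h2]
      refine Finset.sum_eq_zero fun g _ => ?_
      rw [tr_smul, tr_conj, h0, mul_zero]
    have h3 := h1 1
    unfold tr at h3
    simp at h3
  obtain ⟨e, he⟩ := exists_tr hp ht
  obtain ⟨c, hc⟩ := exists_pow_mem_ML hp hspan
  exact ⟨_, c, e, hp, hs, ht, hc, he⟩

/-- `x - 1 ∈ p^k M` -/
def PM (F : Type*) {L : Type*} [Field F] [NumberField F] [Field L] [NumberField L]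
    [Algebra F L] [IsGalois F L] (p : ℕ) (β : L) (k : ℕ) (y : L) : Prop :=
  ∃ m ∈ ML (F := F) p β, y = (p : L) ^ k * m

namespace Dat

theorem pM_of_Rs (h : Dat F p β c e) {k : ℕ} {r : L} (hr : r ∈ Rs L p) :
    PM F p β k ((p : L) ^ (k + c) * r) := ⟨_, h.hc r hr, by rw [pow_add, mul_assoc]⟩

theorem pM_mono (_h : Dat F p β c e) {j k : ℕ} (hjk : j ≤ k) {y : L} (hy : PM F p β k y) :
    PM F p β j y := by
  obtain ⟨m, hm, rfl⟩ := hy
  obtain ⟨t, rfl⟩ := Nat.exists_eq_add_of_le hjk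
  exact ⟨_, pow_mul_mem_ML t hm, by rw [pow_add, mul_assoc]⟩

theorem M_le (h : Dat F p β c e) {m : L} (hm : m ∈ ML (F := F) p β) : m ∈ Rs L p :=
  ML_le h.hp h.hβ hm

/-- elements near `1` are units, with inverse near `1` -/
theorem unit (h : Dat F p β c e) {k : ℕ} (hk : 1 ≤ k) (hck : c ≤ k) {x : L}
    (hx : PM F p β k (x - 1)) : x ≠ 0 ∧ x⁻¹ ∈ Rs L p ∧ PM F p β k (x⁻¹ - 1) := by
  obtain ⟨m, hm, hxm⟩ := hx
  have hx' : x = 1 + (p : L) ^ k * m := by rw [← hxm]; ring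
  obtain ⟨h1, h2, -⟩ := unit_of_one_add h.hp hk (h.M_le hm)
  rw [← hx'] at h1 h2
  refine ⟨h1, h2, ?_⟩
  have h3 : x⁻¹ - 1 = (p : L) ^ k * (-m + (p : L) ^ k * (m * m * x⁻¹)) := by
    field_simp
    rw [hx']
    ring
  refine ⟨_, ?_, h3⟩
  refine add_mem (neg_mem hm) ?_
  obtain ⟨t, rfl⟩ := Nat.exists_eq_add_of_le hck
  have h5 : (p : L) ^ (c + t) * (m * m * x⁻¹) = (p : L) ^ t * ((p : L) ^ c * (m * m * x⁻¹)) := by
    rw [pow_add]
    ring
  rw [h5]
  exact pow_mul_mem_ML t (h.hc _ ((Rs L p).mul_mem ((Rs L p).mul_mem (h.M_le hm) (h.M_le hm)) h2))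

/-- products -/
theorem pM_mul (h : Dat F p β c e) {k : ℕ} (hck : c ≤ k) {x y : L}
    (hx : PM F p β k (x - 1)) (hy : PM F p β k (y - 1)) : PM F p β k (x * y - 1) := by
  obtain ⟨m, hm, hxm⟩ := hx
  obtain ⟨m', hm', hym⟩ := hy
  obtain ⟨t, rfl⟩ := Nat.exists_eq_add_of_le hck
  refine ⟨m + m' + (p : L) ^ t * ((p : L) ^ c * (m * m')), add_mem (add_mem hm hm')
    (pow_mul_mem_ML t (h.hc _ ((Rs L p).mul_mem (h.M_le hm) (h.M_le hm')))), ?_⟩
  have h1 : x * y - 1 = (x - 1) + (y - 1) + (x - 1) * (y - 1) := by ring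
  rw [h1, hxm, hym, pow_add]
  ring

theorem pM_gal (_h : Dat F p β c e) {k : ℕ} (g : L ≃ₐ[F] L) {x : L}
    (hx : PM F p β k (x - 1)) : PM F p β k (g x - 1) := by
  obtain ⟨m, hm, hxm⟩ := hx
  refine ⟨g m, gal_mem_ML g hm, ?_⟩
  have h1 : g x - 1 = g (x - 1) := by rw [map_sub, map_one]
  rw [h1, hxm, map_mul, map_pow, map_natCast]

/-- the group `V_k` -/
def VV (h : Dat F p β c e) (k : ℕ) (hck : c ≤ k) : Subgroup Lˣ where
  carrier := {x | PM F p β k ((x : L) - 1) ∧ PM F p β k (((x⁻¹ : Lˣ) : L) - 1)}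
  one_mem' := by
    have : PM F p β k (0 : L) := ⟨0, zero_mem _, by simp⟩
    simpa using this
  mul_mem' := by
    rintro x y ⟨hx, hx'⟩ ⟨hy, hy'⟩
    refine ⟨?_, ?_⟩
    · rw [Units.val_mul]
      exact h.pM_mul hck hx hy
    · rw [mul_inv, Units.val_mul]
      exact h.pM_mul hck hx' hy'
  inv_mem' := by
    rintro x ⟨hx, hx'⟩
    exact ⟨hx', by simpa using hx⟩

theorem mem_VV (h : Dat F p β c e) {k : ℕ} (hk : 1 ≤ k) (hck : c ≤ k) {x : Lˣ}
    (hx : PM F p β k ((x : L) - 1)) : x ∈ h.VV k hck := by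
  refine ⟨hx, ?_⟩
  rw [Units.val_inv_eq_inv_val]
  exact (h.unit hk hck hx).2.2

/-- the product of `1 + p^J x_i` -/
theorem prod_one_add {ι : Type*} (s : Finset ι) (J : ℕ) (x : ι → L) (hx : ∀ i, x i ∈ Rs L p) :
    ∃ r ∈ Rs L p, ∏ i ∈ s, (1 + (p : L) ^ J * x i) =
      1 + (p : L) ^ J * ∑ i ∈ s, x i + (p : L) ^ (2 * J) * r := by
  classical
  induction s using Finset.induction_on with
  | empty => exact ⟨0, zero_mem _, by simp⟩
  | insert i s hi ih =>
    obtain ⟨r, hr, h⟩ := ih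
    refine ⟨r + x i * ∑ i ∈ s, x i + (p : L) ^ J * (x i * r), ?_, ?_⟩
    · exact add_mem (add_mem hr (mul_mem (hx i) (sum_mem fun j _ => hx j)))
        (mul_mem (pow_mem_Rs J) (mul_mem (hx i) hr))
    · rw [Finset.prod_insert hi, Finset.sum_insert hi, h]
      ring

/-- **one step of the approximation** -/
theorem step (h : Dat F p β c e) {σ : L ≃ₐ[F] L} (hσ : ∀ τ, τ ∈ Subgroup.zpowers σ) {J : ℕ}
    (hJ : e + c + 1 ≤ J) {a : L} (ha : a ≠ 0) (hD : PM F p β J (σ a / a - 1)) :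
    ∃ y : L, y ≠ 0 ∧ PM F p β J (y - 1) ∧ PM F p β (J + 1) (σ (a / y) / (a / y) - 1) := by
  have hp0 : (p : L) ≠ 0 := by exact_mod_cast h.hp.ne_zero
  obtain ⟨m, hm, hD'⟩ := hD
  have hσa : σ a = a * (1 + (p : L) ^ J * m) := by
    have : σ a / a = 1 + (p : L) ^ J * m := by rw [← hD']; ring
    rw [← this]
    field_simp
  -- the norm of `1 + p^J m`
  have h1 : ∏ g : L ≃ₐ[F] L, (1 + (p : L) ^ J * g m) = 1 := by
    have h2 : ∀ g : L ≃ₐ[F] L, 1 + (p : L) ^ J * g m = g (σ a) / g a := by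
      intro g
      rw [hσa, map_mul, map_add, map_one, map_mul, map_pow, map_natCast]
      have : g a ≠ 0 := by simpa using ha
      field_simp
    rw [Finset.prod_congr rfl fun g _ => h2 g, Finset.prod_div_distrib]
    have h3 : ∏ g : L ≃ₐ[F] L, g (σ a) = ∏ g : L ≃ₐ[F] L, g a :=
      Fintype.prod_equiv (Equiv.mulRight σ) _ _ fun g => rfl
    rw [h3]
    refine div_self (Finset.prod_ne_zero_iff.2 fun g _ => ?_)
    simpa using ha
  obtain ⟨r, hr, h2⟩ := prod_one_add (p := p) (Finset.univ : Finset (L ≃ₐ[F] L)) J (fun g => g m)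
    (fun g => gal_mem_Rs h.hp g (h.M_le hm))
  rw [h1] at h2
  have h3 : tr F m = (p : L) ^ J * (-r) := by
    have h4 : (p : L) ^ J * (tr F m + (p : L) ^ J * r) = 0 := by
      unfold tr
      have : (p : L) ^ (2 * J) = (p : L) ^ J * (p : L) ^ J := by rw [two_mul, pow_add]
      rw [this] at h2
      linear_combination -h2
    have h5 := (mul_eq_zero.1 h4).resolve_left (pow_ne_zero _ hp0)
    linear_combination h5
  -- an element with the same trace
  have hrF : ∃ f : F, algebraMap F L f = -r := by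
    refine ⟨((p : F) ^ J)⁻¹ * Algebra.trace F L m, ?_⟩
    rw [map_mul, map_inv₀, map_pow, map_natCast, ← tr_eq, h3]
    field_simp
  obtain ⟨m0, hm0, hm0t⟩ := h.he (-r) (neg_mem hr) hrF
  obtain ⟨t, ht⟩ := Nat.exists_eq_add_of_le (show e ≤ J by omega)
  have h6 : tr F (m - (p : L) ^ t * m0) = 0 := by
    have h7 : (p : L) ^ t * m0 = algebraMap F L ((p : F) ^ t) * m0 := by
      rw [map_pow, map_natCast]
    rw [tr_sub, h3, h7, tr_smul, hm0t, map_pow, map_natCast, ht, pow_add]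
    ring
  obtain ⟨m', hm', h8⟩ := exists_of_tr_zero hσ h.ht
    (sub_mem hm (pow_mul_mem_ML t hm0)) h6
  -- the correction
  set y : L := 1 + (p : L) ^ J * m' with hy
  have hyP : PM F p β J (y - 1) := ⟨m', hm', by rw [hy]; ring⟩
  obtain ⟨hy0, hyi, -⟩ := h.unit (by omega) (by omega) hyP
  refine ⟨y, hy0, hyP, ?_⟩
  have hσy : σ y = 1 + (p : L) ^ J * σ m' := by
    rw [hy, map_add, map_one, map_mul, map_pow, map_natCast]
  have hσy0 : σ y ≠ 0 := by simpa using hy0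
  have h9 : σ (a / y) / (a / y) - 1 =
      (p : L) ^ (J + 1 + c) * ((p : L) ^ (J - e - c - 1) * ((m0 + (p : L) ^ e * (m * m')) *
        (σ y)⁻¹)) := by
    have e1 : (p : L) ^ (J + 1 + c) * ((p : L) ^ (J - e - c - 1) *
        ((m0 + (p : L) ^ e * (m * m')) * (σ y)⁻¹)) =
        ((p : L) ^ J * ((p : L) ^ t * m0 + (p : L) ^ J * (m * m'))) * (σ y)⁻¹ := by
      have e2 : (p : L) ^ (J + 1 + c) * (p : L) ^ (J - e - c - 1) =
          (p : L) ^ J * (p : L) ^ t := by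
        rw [← pow_add, ← pow_add]
        congr 1
        omega
      have e3 : (p : L) ^ J = (p : L) ^ t * (p : L) ^ e := by
        rw [← pow_add]
        congr 1
        omega
      calc _ = ((p : L) ^ (J + 1 + c) * (p : L) ^ (J - e - c - 1)) *
          (m0 + (p : L) ^ e * (m * m')) * (σ y)⁻¹ := by ring
        _ = ((p : L) ^ J * (p : L) ^ t) * (m0 + (p : L) ^ e * (m * m')) * (σ y)⁻¹ := by rw [e2]
        _ = ((p : L) ^ J * ((p : L) ^ t * m0 + ((p : L) ^ t * (p : L) ^ e) * (m * m'))) *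
            (σ y)⁻¹ := by ring
        _ = _ := by rw [← e3]
    rw [e1, map_div₀, hσa]
    have e4 : a * (1 + (p : L) ^ J * m) / σ y / (a / y) - 1 =
        ((1 + (p : L) ^ J * m) * y - σ y) * (σ y)⁻¹ := by
      field_simp
    rw [e4]
    congr 1
    rw [hσy, hy]
    linear_combination (p : L) ^ J * h8
  rw [h9]
  exact h.pM_of_Rs (mul_mem (pow_mem_Rs _) (mul_mem (add_mem (h.M_le hm0) (mul_mem (pow_mem_Rs _)
    (mul_mem (h.M_le hm) (h.M_le hm')))) (by
      have := gal_mem_Rs h.hp σ hyi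
      rwa [map_inv₀] at this)))

/-- the approximation to any order -/
theorem steps (h : Dat F p β c e) {σ : L ≃ₐ[F] L} (hσ : ∀ τ, τ ∈ Subgroup.zpowers σ) {J : ℕ}
    (hJ : e + c + 1 ≤ J) {a : L} (ha : a ≠ 0) (hD : PM F p β J (σ a / a - 1)) (n : ℕ) :
    ∃ y : L, y ≠ 0 ∧ PM F p β J (y - 1) ∧ PM F p β (J + n) (σ (a / y) / (a / y) - 1) := by
  induction n with
  | zero =>
    refine ⟨1, one_ne_zero, ⟨0, zero_mem _, by simp⟩, ?_⟩
    simpa using hD
  | succ n ih =>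
    obtain ⟨y, hy0, hy, h1⟩ := ih
    obtain ⟨z, hz0, hz, h2⟩ := h.step hσ (show e + c + 1 ≤ J + n by omega)
      (div_ne_zero ha hy0) h1
    refine ⟨y * z, mul_ne_zero hy0 hz0, h.pM_mul (by omega) hy
      (h.pM_mono (Nat.le_add_right J n) hz), ?_⟩
    rw [← div_div]
    exact h2

/-- **(V)** -/
theorem main (h : Dat F p β c e) {σ : L ≃ₐ[F] L} (hσ : ∀ τ, τ ∈ Subgroup.zpowers σ) {J : ℕ}
    (hJ : e + c + 1 ≤ J) {a : L} (ha : a ≠ 0) (hD : PM F p β J (σ a / a - 1)) :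
    ∃ f : L, f ≠ 0 ∧ σ f = f ∧ PM F p β J (a / f - 1) := by
  obtain ⟨s1, hs1⟩ := exists_pow_mul_mem (L := L) h.hp a
  obtain ⟨s2, hs2⟩ := exists_pow_mul_mem (L := L) h.hp a⁻¹
  have hp0 : (p : L) ≠ 0 := by exact_mod_cast h.hp.ne_zero
  obtain ⟨y, hy0, hy, ⟨m, hm, hm'⟩⟩ := h.steps hσ hJ ha hD (s1 + s2 + 2 * c)
  obtain ⟨-, hyi, -⟩ := h.unit (by omega) (by omega) hy
  have hyR : y ∈ Rs L p := by
    obtain ⟨m1, hm1, h1⟩ := hy
    have : y = 1 + (p : L) ^ J * m1 := by rw [← h1]; ring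
    rw [this]
    exact add_mem (one_mem _) (mul_mem (pow_mem_Rs _) (h.M_le hm1))
  set b := a / y with hb
  have hb0 : b ≠ 0 := div_ne_zero ha hy0
  have hσb : σ b - b = (p : L) ^ (J + s2 + c) * ((p : L) ^ c * (((p : L) ^ s1 * a) * y⁻¹ * m)) := by
    have h1 : σ b / b = 1 + (p : L) ^ (J + (s1 + s2 + 2 * c)) * m := by rw [← hm']; ring
    have h2 : σ b = b * (1 + (p : L) ^ (J + (s1 + s2 + 2 * c)) * m) := by
      rw [← h1]
      field_simp
    have h3 : (p : L) ^ (J + (s1 + s2 + 2 * c)) =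
        (p : L) ^ (J + s2 + c) * ((p : L) ^ c * (p : L) ^ s1) := by
      rw [← pow_add, ← pow_add]
      congr 1
      omega
    rw [h2, h3, hb]
    field_simp
    ring
  have hmR : (p : L) ^ c * (((p : L) ^ s1 * a) * y⁻¹ * m) ∈ ML (F := F) p β :=
    h.hc _ (mul_mem (mul_mem hs1 hyi) (h.M_le hm))
  have h4 : tr F ((p : L) ^ c * (((p : L) ^ s1 * a) * y⁻¹ * m)) = 0 := by
    have h5 : tr F (σ b - b) = 0 := by rw [tr_sub, tr_conj, sub_self]
    have h6 : (p : L) ^ (J + s2 + c) = algebraMap F L ((p : F) ^ (J + s2 + c)) := by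
      rw [map_pow, map_natCast]
    rw [hσb, h6, tr_smul, ← h6] at h5
    exact (mul_eq_zero.1 h5).resolve_left (pow_ne_zero _ hp0)
  obtain ⟨m2, hm2, h7⟩ := exists_of_tr_zero hσ h.ht hmR h4
  set f : L := b - (p : L) ^ (J + s2 + c) * m2 with hf
  have hσf : σ f = f := by
    rw [hf, map_sub, map_mul, map_pow, map_natCast]
    rw [h7] at hσb
    linear_combination hσb
  have h8 : f / b - 1 = (p : L) ^ (J + c) * (-(((p : L) ^ s2 * a⁻¹) * y * m2)) := by
    have h9 : (p : L) ^ (J + s2 + c) = (p : L) ^ (J + c) * (p : L) ^ s2 := by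
      rw [← pow_add]
      congr 1
      omega
    rw [hf, h9, hb]
    field_simp
    ring
  have h9 : PM F p β J (f / b - 1) := by
    rw [h8]
    exact h.pM_of_Rs (neg_mem (mul_mem (mul_mem hs2 hyR) (h.M_le hm2)))
  obtain ⟨h10, -, h11⟩ := h.unit (by omega) (by omega) h9
  have hf0 : f ≠ 0 := by
    intro h0
    rw [h0, zero_div] at h10
    exact h10 rfl
  refine ⟨f, hf0, hσf, ?_⟩
  have h12 : a / f = (f / b)⁻¹ * y := by
    rw [hb]
    field_simp
  rw [h12]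
  exact h.pM_mul (by omega) h11 hy

end Dat

end

end Vale.Agent.P024.H409
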