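import Vale.Agent.P024.H409.Comm4

/-!
P024: a nontrivial subgroup normalized by an open subgroup is not contained in four cosets of a
cyclic subgroup, already modulo some open normal subgroup.
-/

namespace Vale.Agent.P024.H409

open scoped NumberField ENNReal Topology
open IsDedekindDomain NumberField Filter

section Five

variable {E : Type*} [Field E] [CharZero E] [IsGalois ℚ E]

/-- `σ` fixes `ζ` and multiplies `y i` by `ζ ^ (p i)`. -/
def Mult (ζ : E) (y : Bool → E) (σ : E ≃ₐ[ℚ] E) (p : Bool → ZMod 5) : Prop :=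
  σ ζ = ζ ∧ ∀ i, σ (y i) = ζ ^ (p i).val * y i

omit [IsGalois ℚ E] in
theorem Mult.mul {ζ : E} (hζ : IsPrimitiveRoot ζ 5) {y : Bool → E} {σ τ : E ≃ₐ[ℚ] E}
    {p q : Bool → ZMod 5} (hσ : Mult ζ y σ p) (hτ : Mult ζ y τ q) :
    Mult ζ y (σ * τ) (p + q) := by
  refine ⟨by rw [AlgEquiv.mul_apply, hτ.1, hσ.1], fun i => ?_⟩
  rw [AlgEquiv.mul_apply, hτ.2, map_mul, map_pow, hσ.1, hσ.2, ← mul_assoc, ← pow_add]
  congr 1
  rw [rootPow_eq_iff_modEq hζ _ _ (by norm_num), ← ZMod.natCast_eq_natCast_iff]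
  push_cast
  rw [ZMod.natCast_zmod_val, ZMod.natCast_zmod_val, ZMod.natCast_zmod_val, Pi.add_apply, add_comm]

omit [IsGalois ℚ E] in
theorem Mult.one {ζ : E} {y : Bool → E} : Mult ζ y 1 0 :=
  ⟨rfl, fun i => by rw [Pi.zero_apply, ZMod.val_zero, pow_zero, one_mul, AlgEquiv.one_apply]⟩

omit [IsGalois ℚ E] in
theorem Mult.unique {ζ : E} (hζ : IsPrimitiveRoot ζ 5) {y : Bool → E} (hy : ∀ i, y i ≠ 0)
    {σ : E ≃ₐ[ℚ] E} {p q : Bool → ZMod 5} (hp : Mult ζ y σ p) (hq : Mult ζ y σ q) : p = q := by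
  funext i
  have h1 := (hp.2 i).symm.trans (hq.2 i)
  have h2 := mul_right_cancel₀ (hy i) h1
  rw [rootPow_eq_iff_modEq hζ _ _ (by norm_num), ← ZMod.natCast_eq_natCast_iff,
    ZMod.natCast_zmod_val, ZMod.natCast_zmod_val] at h2
  exact h2

omit [IsGalois ℚ E] in
theorem Mult.inv {ζ : E} (hζ : IsPrimitiveRoot ζ 5) {y : Bool → E} {σ : E ≃ₐ[ℚ] E}
    {p : Bool → ZMod 5} (hσ : Mult ζ y σ p) : Mult ζ y σ⁻¹ (-p) := by
  have h0 : ∀ x : E, σ⁻¹ (σ x) = x := fun x => by
    rw [← AlgEquiv.mul_apply, inv_mul_cancel, AlgEquiv.one_apply]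
  have hζ' : σ⁻¹ ζ = ζ := by
    have := h0 ζ
    rwa [hσ.1] at this
  refine ⟨hζ', fun i => ?_⟩
  have h1 := h0 (ζ ^ ((-p) i).val * y i)
  rw [map_mul, map_pow, hσ.1, hσ.2, ← mul_assoc, ← pow_add] at h1
  have h2 : ζ ^ (((-p) i).val + (p i).val) = ζ ^ 0 := by
    rw [rootPow_eq_iff_modEq hζ _ _ (by norm_num), ← ZMod.natCast_eq_natCast_iff]
    push_cast
    rw [ZMod.natCast_zmod_val, ZMod.natCast_zmod_val, Pi.neg_apply, neg_add_cancel]
  rw [h2, pow_zero, one_mul] at h1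
  exact h1

omit [IsGalois ℚ E] in
theorem Mult.pow {ζ : E} (hζ : IsPrimitiveRoot ζ 5) {y : Bool → E} {σ : E ≃ₐ[ℚ] E}
    {p : Bool → ZMod 5} (hσ : Mult ζ y σ p) (n : ℕ) : Mult ζ y (σ ^ n) (n • p) := by
  induction n with
  | zero => rw [pow_zero, zero_smul]; exact Mult.one
  | succ n ih => rw [pow_succ, succ_nsmul]; exact ih.mul hζ hσ

omit [IsGalois ℚ E] in
theorem Mult.zpow {ζ : E} (hζ : IsPrimitiveRoot ζ 5) {y : Bool → E} {σ : E ≃ₐ[ℚ] E}
    {p : Bool → ZMod 5} (hσ : Mult ζ y σ p) (n : ℤ) : Mult ζ y (σ ^ n) (n • p) := by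
  cases n with
  | ofNat n =>
    rw [Int.ofNat_eq_natCast, zpow_natCast, natCast_zsmul]
    exact hσ.pow hζ n
  | negSucc n =>
    rw [zpow_negSucc, negSucc_zsmul]
    exact (hσ.pow hζ (n + 1)).inv hζ

omit [IsGalois ℚ E] in
/-- Automorphisms of the form `z ^ k t i` on `ζ, y i` do not give all exponents. -/
theorem not_four {ζ : E} (hζ : IsPrimitiveRoot ζ 5) {y : Bool → E} (hy : ∀ i, y i ≠ 0)
    (c : (Bool → ZMod 5) → (E ≃ₐ[ℚ] E)) (hc : ∀ p, Mult ζ y (c p) p)
    (z : E ≃ₐ[ℚ] E) (t : Fin 4 → E ≃ₐ[ℚ] E) (i : (Bool → ZMod 5) → Fin 4)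
    (k : (Bool → ZMod 5) → ℤ)
    (h : ∀ p, (c p) ζ = (z ^ k p * t (i p)) ζ ∧ ∀ j, (c p) (y j) = (z ^ k p * t (i p)) (y j)) :
    False := by
  classical
  -- the exponents of the powers of `z`
  let D : AddSubgroup ℤ :=
    { carrier := {n | ∃ p, Mult ζ y (z ^ n) p}
      zero_mem' := ⟨0, by rw [zpow_zero]; exact Mult.one⟩
      add_mem' := by
        rintro a b ⟨p, hp⟩ ⟨q, hq⟩
        exact ⟨p + q, by rw [zpow_add]; exact hp.mul hζ hq⟩
      neg_mem' := by
        rintro a ⟨p, hp⟩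
        exact ⟨-p, by rw [zpow_neg]; exact hp.inv hζ⟩ }
  obtain ⟨d, hd⟩ := Int.subgroup_cyclic D
  have hdD : d ∈ D := by rw [hd]; exact AddSubgroup.subset_closure rfl
  obtain ⟨v, hv⟩ := hdD
  -- differences inside one class
  have hdiff : ∀ p q, i p = i q → ∃ m : ℤ, p - q = m • v := by
    intro p q hpq
    have h1 : Mult ζ y (z ^ (k p - k q)) (p - q) := by
      have e : ∀ x : E, (c p) x = (z ^ k p * t (i p)) x → (c q) x = (z ^ k q * t (i q)) x →
          (z ^ (k p - k q)) ((c q) x) = (c p) x := by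
        intro x h1 h2
        rw [h1, h2, hpq, ← AlgEquiv.mul_apply, ← mul_assoc, ← zpow_add, sub_add_cancel]
      have e1 := e ζ (h p).1 (h q).1
      rw [(hc p).1, (hc q).1] at e1
      refine ⟨e1, fun j => ?_⟩
      have e2 := e (y j) ((h p).2 j) ((h q).2 j)
      rw [(hc p).2, (hc q).2, map_mul, map_pow, e1] at e2
      have hζ0 : ζ ≠ 0 := hζ.ne_zero (by norm_num)
      apply mul_left_cancel₀ (pow_ne_zero (q j).val hζ0)
      rw [e2, ← mul_assoc, ← pow_add]
      congr 1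
      rw [rootPow_eq_iff_modEq hζ _ _ (by norm_num), ← ZMod.natCast_eq_natCast_iff]
      push_cast
      rw [ZMod.natCast_zmod_val, ZMod.natCast_zmod_val, ZMod.natCast_zmod_val, Pi.sub_apply,
        add_sub_cancel]
    have h2 : (k p - k q) ∈ D := ⟨_, h1⟩
    rw [hd, AddSubgroup.mem_closure_singleton] at h2
    obtain ⟨m, hm⟩ := h2
    refine ⟨m, ?_⟩
    have h3 := hv.zpow hζ m
    rw [← zpow_mul, mul_comm, ← smul_eq_mul, hm] at h3
    exact h1.unique hζ hy h3
  -- a class with more than five elements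
  have hcard : Fintype.card (Fin 4) * 5 < Fintype.card (Bool → ZMod 5) := by
    rw [Fintype.card_fin, Fintype.card_fun, Fintype.card_bool, ZMod.card]
    norm_num
  obtain ⟨i₀, hi₀⟩ := Fintype.exists_lt_card_fiber_of_mul_lt_card i hcard
  obtain ⟨p₀, hp₀⟩ : (Finset.univ.filter fun p => i p = i₀).Nonempty := by
    rw [← Finset.card_pos]
    omega
  have hsub : (Finset.univ.filter fun p => i p = i₀) ⊆
      (Finset.univ : Finset (ZMod 5)).image fun m => m • v + p₀ := by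
    intro p hp
    rw [Finset.mem_filter] at hp hp₀
    obtain ⟨m, hm⟩ := hdiff p p₀ (by rw [hp.2, hp₀.2])
    rw [Finset.mem_image]
    refine ⟨(m : ZMod 5), Finset.mem_univ _, ?_⟩
    have h4 : ((m : ZMod 5) • v : Bool → ZMod 5) = m • v := by
      funext j
      simp
    rw [h4, ← hm, sub_add_cancel]
  have h5 := (Finset.card_le_card hsub).trans Finset.card_image_le
  rw [Finset.card_univ, ZMod.card] at h5
  omega

/-- Commutators with prescribed Kummer exponents. -/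
theorem exists_commutator (hroot : ∀ x : E, ∃ y : E, y ^ 5 = x) {ζ : E}
    (hζ : IsPrimitiveRoot ζ 5) (M : IntermediateField ℚ E) [FiniteDimensional ℚ M]
    [IsGalois ℚ M] (hζM : ζ ∈ M) (σ : E ≃ₐ[ℚ] E) {x : E} (hx : x ∈ M) (hσx : σ x ≠ x) :
    ∃ y : Bool → E, (∀ i, y i ≠ 0) ∧ ∀ i, ∃ ω ∈ M.fixingSubgroup,
      Mult ζ y (ω * σ * ω⁻¹ * σ⁻¹) (Pi.single i 1) := by
  classical
  have hf : Fact (Nat.Prime 5) := ⟨Nat.prime_five⟩
  have hnf : NumberField M := ⟨⟩
  set A : M ≃ₐ[ℚ] M := σ.restrictNormal M with hA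
  have hAx : ∀ x : M, ((A x : M) : E) = σ (x : E) := fun x => σ.restrictNormal_commutes M x
  have hAi : ∀ x : M, ((A⁻¹ x : M) : E) = σ⁻¹ (x : E) := by
    intro x
    have h1 : σ ((A⁻¹ x : M) : E) = (x : E) := by
      rw [← hAx, ← AlgEquiv.mul_apply, mul_inv_cancel, AlgEquiv.one_apply]
    rw [← h1, ← AlgEquiv.mul_apply, inv_mul_cancel, AlgEquiv.one_apply]
  have hA1 : A ≠ 1 := by
    intro h
    apply hσx
    have h1 := hAx ⟨x, hx⟩
    rw [h] at h1
    exact h1.symm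
  have hAi1 : A⁻¹ ≠ 1 := inv_ne_one.2 hA1
  obtain ⟨w, z, hz0, hz1, hval, hval'⟩ := exists_pair M
  choose y hy using fun i => hroot (z i : E)
  have hy0 : ∀ i, y i ≠ 0 := by
    intro i h
    have h1 := hy i
    rw [h, zero_pow (by norm_num)] at h1
    exact hz0 i (Subtype.ext h1.symm)
  refine ⟨y, hy0, fun i₀ => ?_⟩
  let Y : Bool × Bool → E := fun j => if j.2 then σ⁻¹ (y j.1) else y j.1
  let Z : Bool × Bool → M := fun j => if j.2 then A⁻¹ (z j.1) else z j.1
  have hYZ : ∀ j, Y j ^ 5 = (Z j : E) := by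
    rintro ⟨i, b⟩
    cases b
    · exact hy i
    · show (σ⁻¹ (y i)) ^ 5 = ((A⁻¹ (z i) : M) : E)
      rw [← map_pow, hy, hAi]
  have hY0 : ∀ j, Y j ≠ 0 := by
    rintro ⟨i, b⟩
    cases b
    · exact hy0 i
    · exact (map_ne_zero _).2 (hy0 i)
  have hZv : ∀ j, (w i₀).valuation M (Z j) = if j = (i₀, false) then WithZero.exp (-1 : ℤ) else 1 := by
    rintro ⟨i, b⟩
    cases b
    · show (w i₀).valuation M (z i) = _
      by_cases h : i = i₀
      · rw [h, if_pos rfl]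
        exact hz1 i₀
      · rw [if_neg (fun h1 => h (congrArg Prod.fst h1))]
        have h2 : i = !i₀ := by
          cases i <;> cases i₀ <;> simp_all
        rw [h2]
        exact hval' i₀ 1
    · show (w i₀).valuation M (A⁻¹ (z i)) = _
      rw [if_neg (fun h1 => by simpa using congrArg Prod.snd h1)]
      by_cases h : i = i₀
      · rw [h]
        exact hval i₀ A⁻¹ hAi1
      · have h2 : i = !i₀ := by
          cases i <;> cases i₀ <;> simp_all
        rw [h2]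
        exact hval' i₀ A⁻¹
  obtain ⟨ω, hω, hω1, hω2⟩ := exists_dual M hζ hζM Y
    (fun j => by rw [hYZ]; exact SetLike.coe_mem _) hY0 (i₀, false) (by
      intro e he
      let t : M := ⟨_, he⟩
      have ht0 : t ≠ 0 := by
        intro h
        have h1 : ∏ j, Y j ^ e j = 0 := congrArg Subtype.val h
        rw [Finset.prod_eq_zero_iff] at h1
        obtain ⟨j, -, hj⟩ := h1
        exact pow_ne_zero _ (hY0 j) hj
      have hrel : t ^ 5 = ∏ j, Z j ^ e j := by
        apply Subtype.ext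
        push_cast
        show (∏ j, Y j ^ e j) ^ 5 = _
        rw [← Finset.prod_pow]
        refine Finset.prod_congr rfl fun j _ => ?_
        rw [← hYZ, ← pow_mul, ← pow_mul, mul_comm]
      have hv := congrArg ((w i₀).valuation M) hrel
      rw [map_pow, map_prod, Finset.prod_eq_single (i₀, false)
        (fun j _ hj => by rw [map_pow, hZv, if_neg hj, one_pow])
        (fun h => absurd (Finset.mem_univ _) h), map_pow, hZv, if_pos rfl] at hv
      have hvt : (w i₀).valuation M t ≠ 0 := (Valuation.ne_zero_iff _).2 ht0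
      rw [← WithZero.exp_log hvt, ← WithZero.exp_nsmul, ← WithZero.exp_nsmul,
        WithZero.exp_inj] at hv
      simp only [nsmul_eq_mul] at hv
      push_cast at hv
      have h3 : (5 : ℤ) ∣ (e (i₀, false) : ℤ) := ⟨-WithZero.log ((w i₀).valuation M t), by linarith⟩
      exact_mod_cast h3)
  refine ⟨ω, hω, ?_⟩
  have hωζ : ω ζ = ζ := fix_apply M hω hζM
  have hfixM : ∀ t ∈ M, (ω * σ * ω⁻¹ * σ⁻¹) t = t := by
    intro t ht
    have h1 : σ⁻¹ t ∈ M := by
      rw [show σ⁻¹ t = ((A⁻¹ ⟨t, ht⟩ : M) : E) from (hAi ⟨t, ht⟩).symm]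
      exact SetLike.coe_mem _
    rw [AlgEquiv.mul_apply, AlgEquiv.mul_apply, AlgEquiv.mul_apply,
      fix_apply M (inv_mem hω) h1, ← AlgEquiv.mul_apply σ, mul_inv_cancel, AlgEquiv.one_apply,
      fix_apply M hω ht]
  refine ⟨hfixM ζ hζM, fun i => ?_⟩
  obtain ⟨m, hm⟩ := exists_exp_root σ (by norm_num) hζ
  have hone : ∀ j : Bool × Bool, j ≠ (i₀, false) → ω (Y j) = ζ ^ 0 * Y j := by
    intro j hj
    rw [pow_zero, one_mul]
    exact hω2 j hj
  have hσy : ω (σ⁻¹ (y i)) = ζ ^ 0 * σ⁻¹ (y i) :=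
    hone (i, true) (fun h1 => by simpa using congrArg Prod.snd h1)
  by_cases h : i = i₀
  · rw [h, Pi.single_eq_same]
    rw [h] at hσy
    have h1 : ω (y i₀) = ζ ^ 1 * y i₀ := by rw [pow_one]; exact hω1
    have h2 := commutator_apply σ hm ω hωζ h1 hσy
    rw [mul_zero, pow_zero, one_mul] at h2
    rw [h2]
    rfl
  · rw [Pi.single_eq_of_ne h, ZMod.val_zero]
    have h1 : ω (y i) = ζ ^ 0 * y i := hone (i, false) (fun h1 => h (congrArg Prod.fst h1))
    have h2 := commutator_apply σ hm ω hωζ h1 hσy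
    rw [mul_zero, pow_zero, one_mul, one_mul] at h2
    rw [pow_zero, one_mul]
    exact h2

end Five

theorem propNRM : M4.PropNRM := by
  classical
  intro E _ _ _ hE W C hW _ hC hC1
  rw [Ne, Subgroup.eq_bot_iff_forall] at hC1
  push_neg at hC1
  obtain ⟨σ, hσ, hσ1⟩ := hC1
  obtain ⟨x, hx⟩ := exists_apply_ne hσ1
  obtain ⟨ζ, hζ⟩ := hE.exists_primitiveRoot 5 (by norm_num)
  have hroot := fun t => hE.exists_root 5 (by norm_num) t
  obtain ⟨M, hM1, hM2, hM3, hM4⟩ := exists_good W hW {x, ζ}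
  obtain ⟨y, hy0, hy⟩ := exists_commutator hroot hζ M (hM3 ζ (by simp)) σ (hM3 x (by simp)) hx
  choose ω hω hmult using hy
  obtain ⟨N, hN1, hN2, hN3, -⟩ := exists_good (⊤ : Subgroup (E ≃ₐ[ℚ] E)) isOpen_univ
    {ζ, y true, y false}
  have hζN : ζ ∈ N := hN3 ζ (by simp)
  have hyN : ∀ i, y i ∈ N := by
    intro i
    cases i
    · exact hN3 _ (by simp)
    · exact hN3 _ (by simp)
  refine ⟨N.fixingSubgroup, ?_, IntermediateField.fixingSubgroup_isOpen N, ?_⟩
  · refine ⟨fun g hg τ => ?_⟩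
    rw [IntermediateField.mem_fixingSubgroup_iff]
    intro u hu
    have h1 : τ⁻¹ u ∈ N := by
      have h2 := (τ⁻¹).restrictNormal_commutes N ⟨u, hu⟩
      rw [show τ⁻¹ u = algebraMap N E ((τ⁻¹).restrictNormal N ⟨u, hu⟩) from h2.symm]
      exact SetLike.coe_mem _
    rw [AlgEquiv.mul_apply, AlgEquiv.mul_apply, fix_apply N hg h1, ← AlgEquiv.mul_apply,
      mul_inv_cancel, AlgEquiv.one_apply]
  intro z t
  by_contra hcon
  push_neg at hcon
  let c₀ : Bool → (E ≃ₐ[ℚ] E) := fun i => ω i * σ * (ω i)⁻¹ * σ⁻¹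
  have hc₀ : ∀ i, c₀ i ∈ C := fun i => mul_mem (hC _ (hM4 (hω i)) σ hσ) (inv_mem hσ)
  let c : (Bool → ZMod 5) → (E ≃ₐ[ℚ] E) := fun p =>
    c₀ false ^ (p false).val * c₀ true ^ (p true).val
  have hcC : ∀ p, c p ∈ C := fun p => mul_mem (pow_mem (hc₀ _) _) (pow_mem (hc₀ _) _)
  have hcm : ∀ p, Mult ζ y (c p) p := by
    intro p
    have h1 := ((hmult false).pow hζ (p false).val).mul hζ ((hmult true).pow hζ (p true).val)
    convert h1 using 1
    funext j
    rw [Pi.add_apply, Pi.smul_apply, Pi.smul_apply, nsmul_eq_mul, nsmul_eq_mul,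
      ZMod.natCast_zmod_val, ZMod.natCast_zmod_val]
    cases j
    · rw [Pi.single_eq_same, Pi.single_eq_of_ne (by decide), mul_one, mul_zero, add_zero]
    · rw [Pi.single_eq_same, Pi.single_eq_of_ne (by decide), mul_one, mul_zero, zero_add]
  choose i k hik using fun p => hcon (c p) (hcC p)
  refine not_four hζ hy0 c hcm z t i k ?_
  intro p
  have key : ∀ u ∈ N, (c p) u = (z ^ k p * t (i p)) u := by
    intro u hu
    have h1 := fix_apply N (hik p) hu
    rw [AlgEquiv.mul_apply] at h1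
    have h2 := congrArg (z ^ k p * t (i p)) h1
    rw [← AlgEquiv.mul_apply, mul_inv_cancel, AlgEquiv.one_apply] at h2
    exact h2
  exact ⟨key ζ hζN, fun j => key (y j) (hyN j)⟩

end Vale.Agent.P024.H409
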